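import Vale.Agent.P157.Pair

open MeasureTheory ProbabilityTheory Real
open scoped RealInnerProductSpace ENNReal

namespace Vale.Agent.P157

variable {N M : ℕ}

lemma sum_exp_neg_sq (R : ℕ) : ∑ j ∈ Finset.Icc (-(R:ℤ)) R, Real.exp (-((j:ℝ) ^ 2)) ≤ 4 := by
  have hgeo : ∑ i ∈ Finset.range (R + 1), Real.exp (-(i:ℝ)) ≤ 2 := by
    have h0 := Real.exp_pos (-1 : ℝ)
    have h : Real.exp (-1) ≤ 1/2 := by
      have h2 := Real.add_one_le_exp (1:ℝ)
      have h3 : Real.exp 1 * Real.exp (-1) = 1 := by rw [← Real.exp_add]; simp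
      nlinarith
    have e : ∀ i : ℕ, Real.exp (-(i:ℝ)) = Real.exp (-1) ^ i := fun i => by
      rw [← Real.exp_nat_mul]; ring_nf
    simp only [e]
    calc ∑ i ∈ Finset.range (R + 1), Real.exp (-1) ^ i ≤ ∑ i ∈ Finset.range (R + 1), (1/2 : ℝ) ^ i :=
          Finset.sum_le_sum fun i _ => pow_le_pow_left₀ h0.le h i
      _ ≤ 2 := sum_geometric_two_le _
  have hbound : ∀ i : ℕ, Real.exp (-((i:ℝ) ^ 2)) ≤ Real.exp (-(i:ℝ)) := fun i => exp_le_exp.2 (by
    rcases Nat.eq_zero_or_pos i with h | h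
    · simp [h]
    · have : (1:ℝ) ≤ i := by exact_mod_cast h
      nlinarith)
  have hsub : Finset.Icc (-(R:ℤ)) R ⊆
      (Finset.range (R+1)).image (fun i : ℕ => (i:ℤ)) ∪ (Finset.range (R+1)).image (fun i : ℕ => -(i:ℤ)) := by
    intro j hj
    simp only [Finset.mem_Icc] at hj
    simp only [Finset.mem_union, Finset.mem_image, Finset.mem_range]
    rcases le_total 0 j with h | h
    · exact Or.inl ⟨j.toNat, by omega, by omega⟩
    · exact Or.inr ⟨(-j).toNat, by omega, by omega⟩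
  refine (Finset.sum_le_sum_of_subset_of_nonneg hsub fun _ _ _ => (exp_pos _).le).trans ?_
  set A := (Finset.range (R+1)).image (fun i : ℕ => (i:ℤ))
  set A' := (Finset.range (R+1)).image (fun i : ℕ => -(i:ℤ))
  have hui := Finset.sum_union_inter (s₁ := A) (s₂ := A') (f := fun j : ℤ => Real.exp (-((j:ℝ) ^ 2)))
  have hnn : 0 ≤ ∑ j ∈ A ∩ A', Real.exp (-((j:ℝ) ^ 2)) := Finset.sum_nonneg fun _ _ => (exp_pos _).le
  refine (show _ ≤ ∑ j ∈ A, Real.exp (-((j:ℝ) ^ 2)) + ∑ j ∈ A', Real.exp (-((j:ℝ) ^ 2)) by linarith).trans ?_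
  simp only [A, A']
  rw [Finset.sum_image fun a _ b _ h => by simpa using h, Finset.sum_image fun a _ b _ h => by simpa using h]
  have h1 : ∀ i : ℕ, Real.exp (-(((i:ℤ):ℝ) ^ 2)) ≤ Real.exp (-(i:ℝ)) := fun i => by simpa using hbound i
  have h2 : ∀ i : ℕ, Real.exp (-(((-(i:ℤ):ℤ):ℝ) ^ 2)) ≤ Real.exp (-(i:ℝ)) := fun i => by simpa using hbound i
  linarith [Finset.sum_le_sum (s := Finset.range (R+1)) fun i _ => h1 i,
    Finset.sum_le_sum (s := Finset.range (R+1)) fun i _ => h2 i]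

/-- Lattice points in a Euclidean ball are at most exponentially many. -/
lemma lattice_card (N : ℕ) (R : ℝ) :
    ∃ S : Finset (Fin N → ℤ), (∀ k : Fin N → ℤ, ∑ i, (k i : ℝ) ^ 2 ≤ R → k ∈ S) ∧
      (S.card : ℝ) ≤ Real.exp R * 4 ^ N := by
  classical
  set r := ⌈R⌉₊
  set box := Fintype.piFinset fun _ : Fin N => Finset.Icc (-(r:ℤ)) r
  refine ⟨box.filter fun k => ∑ i, (k i : ℝ) ^ 2 ≤ R, fun k hk => Finset.mem_filter.2 ⟨?_, hk⟩, ?_⟩
  · rw [Fintype.mem_piFinset]; intro i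
    have h1 : (k i : ℝ) ^ 2 ≤ r :=
      ((Finset.single_le_sum (f := fun i => (k i : ℝ) ^ 2) (fun j _ => sq_nonneg _) (Finset.mem_univ i)).trans hk).trans
        (Nat.le_ceil R)
    have h2 : |k i| ≤ (k i) ^ 2 := by rw [← sq_abs]; exact Int.le_self_sq _
    have h3 : (k i) ^ 2 ≤ (r:ℤ) := by exact_mod_cast h1
    rw [Finset.mem_Icc]
    have := abs_le.1 (h2.trans h3)
    omega
  · calc ((box.filter fun k => ∑ i, (k i : ℝ) ^ 2 ≤ R).card : ℝ)
        = ∑ k ∈ box.filter (fun k => ∑ i, (k i : ℝ) ^ 2 ≤ R), (1:ℝ) := by simp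
      _ ≤ ∑ k ∈ box.filter (fun k => ∑ i, (k i : ℝ) ^ 2 ≤ R),
          Real.exp R * ∏ i, Real.exp (-((k i : ℝ) ^ 2)) := by
        refine Finset.sum_le_sum fun k hk => ?_
        rw [← Real.exp_sum, ← Real.exp_add]
        refine Real.one_le_exp ?_
        rw [Finset.sum_neg_distrib]; linarith [(Finset.mem_filter.1 hk).2]
      _ ≤ ∑ k ∈ box, Real.exp R * ∏ i, Real.exp (-((k i : ℝ) ^ 2)) :=
        Finset.sum_le_sum_of_subset_of_nonneg (Finset.filter_subset _ _) fun k _ _ => by positivity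
      _ = Real.exp R * ∏ _i : Fin N, ∑ j ∈ Finset.Icc (-(r:ℤ)) r, Real.exp (-((j:ℝ) ^ 2)) := by
        rw [← Finset.mul_sum, Finset.prod_univ_sum]
      _ ≤ _ := by
        refine mul_le_mul_of_nonneg_left ?_ (exp_pos _).le
        simp only [Finset.prod_const, Finset.card_univ, Fintype.card_fin]
        exact pow_le_pow_left₀ (Finset.sum_nonneg fun _ _ => (exp_pos _).le) (sum_exp_neg_sq r) N

/-- A net of the unit sphere of exponential size. -/
lemma exists_net {δ : ℝ} (hδ : 0 < δ) (hN : 0 < N) : ∃ S : Finset (Vec N), S.Nonempty ∧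
    (∀ u : Vec N, ‖u‖ = 1 → ∃ P ∈ S, ‖u - P‖ ≤ δ / 2) ∧ (∀ P ∈ S, |‖P‖ - 1| ≤ δ / 2) ∧
    (S.card : ℝ) ≤ Real.exp (N * (2 / δ ^ 2 + 1/2 + Real.log 4)) := by
  classical
  set c := δ / √(N:ℝ) with hc
  have hN' : (0:ℝ) < N := by exact_mod_cast hN
  have hc0 : 0 < c := by positivity
  have hc2 : c ^ 2 = δ ^ 2 / N := by rw [hc, div_pow, Real.sq_sqrt hN'.le]
  set pt : (Fin N → ℤ) → Vec N := fun k => WithLp.toLp 2 fun i => c * (k i : ℝ)
  obtain ⟨L, hL, hcard⟩ := lattice_card N ((N:ℝ) * (2 / δ ^ 2 + 1/2))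
  set S := (L.image pt).filter fun P => |‖P‖ - 1| ≤ δ / 2
  have hcover : ∀ u : Vec N, ‖u‖ = 1 → ∃ P ∈ S, ‖u - P‖ ≤ δ / 2 := by
    intro u hu
    set k : Fin N → ℤ := fun i => round (u i / c)
    have hsum : ∑ i, u i ^ 2 = 1 := by rw [← EuclideanSpace.real_norm_sq_eq, hu]; norm_num
    have hd : ‖u - pt k‖ ≤ δ / 2 := by
      rw [← sq_le_sq₀ (norm_nonneg _) (by positivity), EuclideanSpace.real_norm_sq_eq]
      calc ∑ i, (u - pt k) i ^ 2 ≤ ∑ _i : Fin N, (c / 2) ^ 2 := by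
            refine Finset.sum_le_sum fun i _ => ?_
            have h := abs_sub_round (u i / c)
            have e : (u - pt k) i = c * (u i / c - (k i : ℝ)) := by
              simp [pt]; field_simp
            rw [e, mul_pow, div_pow c]
            have : (u i / c - (k i : ℝ)) ^ 2 ≤ (1/2) ^ 2 := by
              rw [← sq_abs]; exact pow_le_pow_left₀ (abs_nonneg _) h 2
            nlinarith [sq_nonneg c]
        _ = (δ / 2) ^ 2 := by
            simp only [Finset.sum_const, Finset.card_univ, Fintype.card_fin, nsmul_eq_mul, div_pow, hc2]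
            field_simp
    have hk : ∑ i, (k i : ℝ) ^ 2 ≤ (N:ℝ) * (2 / δ ^ 2 + 1/2) := by
      calc ∑ i, (k i : ℝ) ^ 2 ≤ ∑ i, (2 * (u i / c) ^ 2 + 1/2) := by
            refine Finset.sum_le_sum fun i _ => ?_
            have h := abs_le.1 (abs_sub_round (u i / c))
            show ((round (u i / c) : ℤ) : ℝ) ^ 2 ≤ _
            nlinarith [sq_nonneg ((u i / c) + (round (u i / c) - u i / c)),
              sq_nonneg ((u i / c) - (round (u i / c) - u i / c))]
        _ = _ := by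
            simp only [Finset.sum_add_distrib, ← Finset.mul_sum, div_pow, ← Finset.sum_div, hsum, hc2]
            simp; field_simp
    refine ⟨pt k, Finset.mem_filter.2 ⟨Finset.mem_image.2 ⟨k, hL k hk, rfl⟩, ?_⟩, hd⟩
    have := abs_norm_sub_norm_le (pt k) u
    rw [hu, norm_sub_rev] at this
    linarith
  refine ⟨S, ?_, hcover, fun P hP => (Finset.mem_filter.1 hP).2, ?_⟩
  · obtain ⟨P, hP, -⟩ := hcover (EuclideanSpace.single ⟨0, hN⟩ (1:ℝ)) (by simp)
    exact ⟨P, hP⟩
  · refine le_trans (by exact_mod_cast (Finset.card_filter_le _ _).trans Finset.card_image_le) (hcard.trans_eq ?_)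
    rw [mul_add (N:ℝ) _ (Real.log 4), Real.exp_add, Real.exp_nat_mul (Real.log 4),
      Real.exp_log (by norm_num)]

/-- Gaussian maxima over a finite family. -/
lemma integral_sup'_le {α ι : Type*} {mα : MeasurableSpace α} {ν : Measure α} [IsProbabilityMeasure ν]
    (S : Finset ι) (hS : S.Nonempty) (Y : ι → α → ℝ) (hY : ∀ P ∈ S, Measurable (Y P))
    {s : ℝ} (hs : 0 < s) (hint : ∀ P ∈ S, Integrable (fun a => Real.exp (s * Y P a)) ν)
    (hY1 : ∀ P ∈ S, Integrable (Y P) ν) {L : ℝ}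
    (hb : ∀ P ∈ S, ∫ a, Real.exp (s * Y P a) ∂ν ≤ Real.exp L) :
    Integrable (fun a => S.sup' hS fun P => Y P a) ν ∧
    ∫ a, (S.sup' hS fun P => Y P a) ∂ν ≤ (Real.log S.card + L) / s := by
  obtain ⟨P0, hP0⟩ := hS
  have hm : Measurable fun a => S.sup' ⟨P0, hP0⟩ fun P => Y P a := by
    have e : (fun a => S.sup' ⟨P0, hP0⟩ fun P => Y P a) = S.sup' ⟨P0, hP0⟩ Y := by
      funext a; exact (Finset.sup'_apply _ _ a).symm
    rw [e]; exact Finset.measurable_sup' ⟨P0, hP0⟩ hY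
  have hX : Integrable (fun a => S.sup' ⟨P0, hP0⟩ fun P => Y P a) ν := by
    refine (integrable_finsetSum S fun P hP => (hY1 P hP).abs).mono' hm.aestronglyMeasurable
      (Filter.Eventually.of_forall fun a => ?_)
    rw [Real.norm_eq_abs]
    obtain ⟨P, hP, hPe⟩ := Finset.exists_mem_eq_sup' ⟨P0, hP0⟩ fun P => Y P a
    rw [hPe]
    exact Finset.single_le_sum (f := fun P => |Y P a|) (fun Q _ => abs_nonneg _) hP
  refine ⟨hX, ?_⟩
  set X := fun a => S.sup' ⟨P0, hP0⟩ fun P => Y P a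
  have hle : ∀ a, Real.exp (s * X a) ≤ ∑ P ∈ S, Real.exp (s * Y P a) := fun a => by
    obtain ⟨P, hP, hPe⟩ := Finset.exists_mem_eq_sup' ⟨P0, hP0⟩ fun P => Y P a
    simp only [X]; rw [hPe]
    exact Finset.single_le_sum (f := fun P => Real.exp (s * Y P a)) (fun Q _ => (exp_pos _).le) hP
  have hE : Integrable (fun a => Real.exp (s * X a)) ν :=
    (integrable_finsetSum S hint).mono' (Real.measurable_exp.comp (hm.const_mul s)).aestronglyMeasurable
      (Filter.Eventually.of_forall fun a => by rw [Real.norm_eq_abs, abs_exp]; exact hle a)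
  have hJ := integral_log_le (X := fun a => Real.exp (s * X a)) (fun a => exp_pos _) hE
    (by simpa using hX.const_mul s)
  simp only [Real.log_exp, integral_const_mul] at hJ
  have hpos : 0 < ∫ a, Real.exp (s * X a) ∂ν := by
    rw [integral_pos_iff_support_of_nonneg (fun a => (exp_pos _).le) hE]
    have : Function.support (fun a => Real.exp (s * X a)) = Set.univ := by ext a; simp
    simp [this]
  have hle2 : ∫ a, Real.exp (s * X a) ∂ν ≤ S.card * Real.exp L := by
    refine (integral_mono hE (integrable_finsetSum S hint) hle).trans ?_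
    rw [integral_finsetSum S hint]
    exact (Finset.sum_le_card_nsmul S _ _ hb).trans_eq (nsmul_eq_mul _ _)
  have := hJ.trans (Real.log_le_log hpos hle2)
  rw [Real.log_mul (by exact_mod_cast Finset.card_ne_zero_of_mem hP0) (exp_pos _).ne', Real.log_exp] at this
  rw [le_div_iff₀ hs]; linarith

lemma law_inner (P : Vec N) :
    (stdGaussian (Vec N)).map (fun h => ⟪h, P⟫) = γ.map (fun t => ‖P‖ * t) := by
  have h0 : (fun h : Vec N => ⟪h, P⟫) = ⇑(innerSL ℝ P) := by
    funext h; simp [real_inner_comm]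
  rw [h0, IsGaussian.map_eq_gaussianReal, integral_strongDual_stdGaussian,
    variance_dual_stdGaussian, innerSL_apply_norm, gaussianReal_map_const_mul]
  congr 1
  · simp
  · ext; simp

lemma integral_inner_law {F : ℝ → ℝ} (hF : Measurable F) (P : Vec N) :
    ∫ h, F ⟪h, P⟫ ∂stdGaussian (Vec N) = ∫ t, F (‖P‖ * t) ∂γ := by
  rw [← integral_map (φ := fun h => ⟪h, P⟫) (by fun_prop) hF.aestronglyMeasurable, law_inner,
    integral_map (by fun_prop) hF.aestronglyMeasurable]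

/-- A uniform-in-configuration quadratic bound: `sup_{|d|=1} Σ_a ⟪g_a,d⟫² ≤ 4 max_{net}`. -/
lemma quad_le (hN : 0 < N) (g : Fin M → Vec N) (S : Finset (Vec N)) (hS : S.Nonempty)
    (hcov : ∀ u : Vec N, ‖u‖ = 1 → ∃ P ∈ S, ‖u - P‖ ≤ 1 / 2) (d : Vec N) :
    ∑ a, ⟪g a, d⟫ ^ 2 ≤ 4 * (S.sup' hS fun P => ∑ a, ⟪g a, P⟫ ^ 2) * ‖d‖ ^ 2 := by
  set Q := S.sup' hS fun P => ∑ a, ⟪g a, P⟫ ^ 2
  have hne : (Metric.sphere (0 : Vec N) 1).Nonempty :=
    ⟨EuclideanSpace.single ⟨0, hN⟩ (1:ℝ), by simp⟩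
  obtain ⟨u, hu, hmax⟩ := (isCompact_sphere (0 : Vec N) 1).exists_isMaxOn hne
    (f := fun d => ∑ a, ⟪g a, d⟫ ^ 2) (by fun_prop)
  have hu1 : ‖u‖ = 1 := by simpa using hu
  set O := ∑ a, ⟪g a, u⟫ ^ 2
  have hgen : ∀ d : Vec N, ∑ a, ⟪g a, d⟫ ^ 2 ≤ O * ‖d‖ ^ 2 := by
    intro d
    by_cases hd : d = 0
    · simp [hd]
    have hn : 0 < ‖d‖ := norm_pos_iff.2 hd
    have h := hmax (show ‖d‖⁻¹ • d ∈ Metric.sphere (0 : Vec N) 1 by simp [norm_smul, hn.ne'])
    simp only [inner_smul_right, mul_pow, ← Finset.mul_sum, Set.mem_ofPred_eq] at h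
    rw [inv_pow, inv_mul_le_iff₀ (by positivity)] at h
    linarith
  obtain ⟨P, hP, hd⟩ := hcov u hu1
  have h1 := hgen (u - P)
  have h2 : ‖u - P‖ ^ 2 ≤ (1/2) ^ 2 := pow_le_pow_left₀ (norm_nonneg _) hd 2
  have hO0 : 0 ≤ O := Finset.sum_nonneg fun a _ => sq_nonneg _
  have h3 : O ≤ 2 * Q + 2 * ∑ a, ⟪g a, u - P⟫ ^ 2 := by
    calc O ≤ ∑ a, (2 * ⟪g a, P⟫ ^ 2 + 2 * ⟪g a, u - P⟫ ^ 2) := Finset.sum_le_sum fun a _ => by
          have e : ⟪g a, u⟫ = ⟪g a, P⟫ + ⟪g a, u - P⟫ := by rw [inner_sub_right]; ring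
          rw [e]; nlinarith [sq_nonneg (⟪g a, P⟫ - ⟪g a, u - P⟫)]
      _ ≤ _ := by
          rw [Finset.sum_add_distrib, ← Finset.mul_sum, ← Finset.mul_sum]
          linarith [Finset.le_sup' (fun P => ∑ a, ⟪g a, P⟫ ^ 2) hP]
  have hO : O ≤ 4 * Q := by nlinarith [mul_le_mul_of_nonneg_left h2 hO0]
  exact (hgen d).trans (mul_le_mul_of_nonneg_right hO (sq_nonneg _))

/-- continuous approximation with a quadratic modulus -/
lemma exists_approx {f : ℝ → ℝ} {B : ℝ} (hf : Measurable f) (hB : ∀ s, |f s| ≤ B) {ε : ℝ} (hε : 0 < ε) :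
    ∃ (h : ℝ → ℝ) (C : ℝ), 0 ≤ C ∧ Continuous h ∧ (∀ s, |h s| ≤ B) ∧ ∫ s, |f s - h s| ∂γ ≤ ε ∧
      ∀ s t, |h s - h t| ≤ ε + C * (s - t) ^ 2 := by
  have hB0 : 0 ≤ B := (abs_nonneg _).trans (hB 0)
  obtain ⟨g, hgs, hgi, hgc, hgI⟩ := (integrable_bdd (ν := γ) hf hB).exists_hasCompactSupport_integral_sub_le hε
  set h := fun s => max (-B) (min B (g s)) with hh
  have hc : Continuous h := by fun_prop
  have hb : ∀ s, |h s| ≤ B := fun s => abs_le.2 ⟨le_max_left _ _, max_le (by linarith) (min_le_left _ _)⟩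
  have hsupp : HasCompactSupport h := by
    refine hgs.mono fun s => ?_
    simp only [Function.mem_support]
    exact mt fun h0 => by simp [hh, h0, hB0]
  have hu : UniformContinuous h := hsupp.uniformContinuous_of_continuous hc
  obtain ⟨η, hη, hmod⟩ := Metric.uniformContinuous_iff.1 hu ε hε
  refine ⟨h, 2 * B / η ^ 2, by positivity, hc, hb, le_trans ?_ hgi, fun s t => ?_⟩
  · refine integral_mono_of_nonneg (Filter.Eventually.of_forall fun s => abs_nonneg _)
      ((integrable_bdd hf hB).sub hgI).norm (Filter.Eventually.of_forall fun s => ?_)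
    simp only [Real.norm_eq_abs, Pi.sub_apply, hh]
    obtain ⟨h1, h2⟩ := abs_le.1 (hB s)
    rcases le_total B (g s) with hg | hg
    · rw [min_eq_left hg, max_eq_right (by linarith), abs_of_nonpos (by linarith)]
      exact (by linarith : -(f s - B) ≤ -(f s - g s)).trans (neg_le_abs _)
    · rw [min_eq_right hg]
      rcases le_total (-B) (g s) with hg' | hg'
      · rw [max_eq_right hg']
      · rw [max_eq_left hg', abs_of_nonneg (by linarith)]
        exact (by linarith : f s - -B ≤ f s - g s).trans (le_abs_self _)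
  · by_cases hst : dist s t < η
    · have := hmod hst
      rw [Real.dist_eq] at this
      linarith [show 0 ≤ 2 * B / η ^ 2 * (s - t) ^ 2 by positivity]
    · push Not at hst
      rw [Real.dist_eq] at hst
      have h1 : |h s - h t| ≤ 2 * B := (abs_sub _ _).trans (by linarith [hb s, hb t])
      have h2 : η ^ 2 ≤ (s - t) ^ 2 := by rw [← sq_abs (s - t)]; exact pow_le_pow_left₀ hη.le hst 2
      have h3 : 2 * B ≤ 2 * B / η ^ 2 * (s - t) ^ 2 := by
        rw [div_mul_eq_mul_div, le_div_iff₀ (by positivity)]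
        exact mul_le_mul_of_nonneg_left h2 (by linarith)
      linarith

lemma exp_small {z : ℝ} (hz : |z| ≤ 1) : Real.exp z ≤ 1 + z + z ^ 2 := by
  have := (abs_le.1 (Real.abs_exp_sub_one_sub_id_le hz)).2; linarith

lemma integrable_gauss_sq : Integrable (fun t : ℝ => t ^ 2) γ := by
  simpa using (memLp_id_gaussianReal (μ := 0) (v := 1) 2).integrable_norm_pow (p := 2) two_ne_zero

lemma integral_gauss_sq : ∫ t, t ^ 2 ∂γ = 1 := by
  have h := variance_id_gaussianReal (μ := 0) (v := 1)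
  rw [variance_eq_integral (by fun_prop),
    show (∫ x, id x ∂gaussianReal 0 1) = 0 from integral_id_gaussianReal] at h
  simpa using h

lemma Q_bound (S : Finset (Vec N)) (hS : S.Nonempty) (hnorm : ∀ P ∈ S, |‖P‖ - 1| ≤ 1 / 2) {c : ℝ}
    (hcard : (S.card : ℝ) ≤ Real.exp (N * c)) :
    Integrable (fun g => S.sup' hS fun P => ∑ a, ⟪g a, P⟫ ^ 2) (patterns N M) ∧
    ∫ g, (S.sup' hS fun P => ∑ a, ⟪g a, P⟫ ^ 2) ∂patterns N M ≤
      9 * (N * c) + 9 * (M * Real.log K4) := by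
  have hP2 : ∀ P ∈ S, 1/9 * ‖P‖ ^ 2 ≤ 1/4 := by
    intro P hP
    have h1 := (abs_le.1 (hnorm P hP)).2
    have h2 := pow_le_pow_left₀ (norm_nonneg P) (show ‖P‖ ≤ 3/2 by linarith) 2
    linarith
  have h := integral_sup'_le (ν := patterns N M) S hS (fun P g => ∑ a, ⟪g a, P⟫ ^ 2)
    (fun P _ => by fun_prop) (show (0:ℝ) < 1/9 by norm_num) (L := M * Real.log K4) ?hint ?h1 ?hb
  case hint =>
    intro P hP
    simp only [Finset.mul_sum, Real.exp_sum]
    refine Integrable.fintype_prod (f := fun _ (h : Vec N) => Real.exp (1/9 * ⟪h, P⟫ ^ 2)) fun _ => ?_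
    refine (integrable_map_measure (μ := stdGaussian (Vec N)) (f := fun h : Vec N => ⟪h, P⟫)
      (g := fun t => Real.exp (1/9 * t ^ 2)) (by fun_prop) (by fun_prop)).1 ?_
    rw [law_inner]
    refine (integrable_map_measure (by fun_prop) (by fun_prop)).2 ?_
    simp only [Function.comp_def, mul_pow, ← mul_assoc]
    exact integrable_exp_sq (hP2 P hP)
  case h1 =>
    intro P hP
    refine integrable_finsetSum _ fun a _ => ?_
    refine integrable_comp_eval (μ := fun _ : Fin M => stdGaussian (Vec N)) (i := a)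
      (f := fun h : Vec N => ⟪h, P⟫ ^ 2) ?_
    refine (integrable_map_measure (μ := stdGaussian (Vec N)) (f := fun h : Vec N => ⟪h, P⟫)
      (g := fun t => t ^ 2) (by fun_prop) (by fun_prop)).1 ?_
    rw [law_inner]
    refine (integrable_map_measure (by fun_prop) (by fun_prop)).2 ?_
    simp only [Function.comp_def, mul_pow]
    exact integrable_gauss_sq.const_mul _
  case hb =>
    intro P hP
    simp only [Finset.mul_sum, Real.exp_sum, patterns]
    rw [integral_fintype_prod_eq_pow (fun h : Vec N => Real.exp (1/9 * ⟪h, P⟫ ^ 2)), Fintype.card_fin,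
      Real.exp_nat_mul, Real.exp_log (lt_of_lt_of_le one_pos one_le_K4),
      integral_inner_law (F := fun t => Real.exp (1/9 * t ^ 2)) (by fun_prop)]
    refine pow_le_pow_left₀ (integral_nonneg fun t => (exp_pos _).le) ?_ M
    simp only [mul_pow, ← mul_assoc]
    exact integral_exp_sq_le_K4 (hP2 P hP)
  refine ⟨h.1, h.2.trans ?_⟩
  have hl : Real.log S.card ≤ N * c := (Real.log_le_iff_le_exp (by exact_mod_cast hS.card_pos)).2 hcard
  rw [div_le_iff₀ (by norm_num : (0:ℝ) < 1/9)]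
  linarith

lemma H_bound (S : Finset (Vec N)) (hS : S.Nonempty) {δ c ε C B s : ℝ} {h : ℝ → ℝ}
    (hs : 0 < s) (hsB : s * B ≤ 1) (hhm : Measurable h) (hhB : ∀ t, |h t| ≤ B) (hC : 0 ≤ C)
    (hmod : ∀ u v, |h u - h v| ≤ ε + C * (u - v) ^ 2)
    (hnorm : ∀ P ∈ S, |‖P‖ - 1| ≤ δ) (hcard : (S.card : ℝ) ≤ Real.exp (N * c)) :
    Integrable (fun g => S.sup' hS fun P => ∑ a, h ⟪g a, P⟫) (patterns N M) ∧
    ∫ g, (S.sup' hS fun P => ∑ a, h ⟪g a, P⟫) ∂patterns N M ≤
      N * (c / s) + M * ((∫ t, h t ∂γ) + ε + C * δ ^ 2 + s * B ^ 2) := by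
  set b := (∫ t, h t ∂γ) + ε + C * δ ^ 2 with hb
  have H := integral_sup'_le (ν := patterns N M) S hS (fun P g => ∑ a, h ⟪g a, P⟫)
    (fun P _ => by fun_prop) hs (L := M * (s * b + s ^ 2 * B ^ 2)) ?hint ?h1 ?hb
  case hint =>
    intro P hP
    refine integrable_bdd (by fun_prop) (C := Real.exp (s * (M * B))) fun g => ?_
    rw [abs_exp]; refine exp_le_exp.2 (mul_le_mul_of_nonneg_left ?_ hs.le)
    exact (Finset.sum_le_sum fun a _ => (abs_le.1 (hhB _)).2).trans (by simp)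
  case h1 =>
    intro P hP
    exact integrable_bdd (by fun_prop) (C := M * B) fun g =>
      (Finset.abs_sum_le_sum_abs _ _).trans ((Finset.sum_le_sum fun a _ => hhB _).trans (by simp))
  case hb =>
    intro P hP
    simp only [Finset.mul_sum, Real.exp_sum, patterns]
    rw [integral_fintype_prod_eq_pow (fun u : Vec N => Real.exp (s * h ⟪u, P⟫)), Fintype.card_fin,
      Real.exp_nat_mul, integral_inner_law (F := fun t => Real.exp (s * h t)) (by fun_prop)]
    refine pow_le_pow_left₀ (integral_nonneg fun t => (exp_pos _).le) ?_ M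
    have ih1 : Integrable (fun t => h (‖P‖ * t)) γ := integrable_bdd (by fun_prop) fun t => hhB _
    have ie : Integrable (fun t => Real.exp (s * h (‖P‖ * t))) γ :=
      integrable_bdd (by fun_prop) (C := Real.exp (s * B)) fun t => by
        rw [abs_exp]; exact exp_le_exp.2 (mul_le_mul_of_nonneg_left (abs_le.1 (hhB _)).2 hs.le)
    have i2 : Integrable (fun t => h t + ε) γ := (integrable_bdd hhm hhB).add (integrable_const _)
    have hm1 : ∫ t, h (‖P‖ * t) ∂γ ≤ b := by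
      have hPd : (‖P‖ - 1) ^ 2 ≤ δ ^ 2 := by
        rw [← sq_abs]; exact pow_le_pow_left₀ (abs_nonneg _) (hnorm P hP) 2
      calc ∫ t, h (‖P‖ * t) ∂γ ≤ ∫ t, (h t + ε + C * δ ^ 2 * t ^ 2) ∂γ := by
            refine integral_mono ih1 (i2.add (integrable_gauss_sq.const_mul _)) fun t => ?_
            have h1 := (abs_le.1 (hmod (‖P‖ * t) t)).2
            have h2 : (‖P‖ * t - t) ^ 2 = (‖P‖ - 1) ^ 2 * t ^ 2 := by ring
            rw [h2] at h1
            have h3 := mul_le_mul_of_nonneg_left (mul_le_mul_of_nonneg_right hPd (sq_nonneg t)) hC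
            linarith
        _ = b := by
            rw [integral_add i2 (integrable_gauss_sq.const_mul _),
              integral_add (integrable_bdd hhm hhB) (integrable_const _),
              integral_const_mul, integral_gauss_sq]
            simp [hb]
    calc ∫ t, Real.exp (s * h (‖P‖ * t)) ∂γ ≤ ∫ t, (1 + s ^ 2 * B ^ 2 + s * h (‖P‖ * t)) ∂γ := by
          refine integral_mono ie ((integrable_const _).add (ih1.const_mul s)) fun t => ?_
          have ha : |s * h (‖P‖ * t)| ≤ s * B := by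
            rw [abs_mul, abs_of_pos hs]; exact mul_le_mul_of_nonneg_left (hhB _) hs.le
          have := exp_small (ha.trans hsB)
          have h2 : (s * h (‖P‖ * t)) ^ 2 ≤ (s * B) ^ 2 := by
            rw [← sq_abs]; exact pow_le_pow_left₀ (abs_nonneg _) ha 2
          linarith
      _ = 1 + s ^ 2 * B ^ 2 + s * ∫ t, h (‖P‖ * t) ∂γ := by
          rw [integral_add (integrable_const _) (ih1.const_mul s), integral_const_mul]; simp
      _ ≤ _ := by
          refine le_trans ?_ (Real.add_one_le_exp _)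
          linarith [mul_le_mul_of_nonneg_left hm1 hs.le]
  refine ⟨H.1, H.2.trans ?_⟩
  have hl : Real.log S.card ≤ N * c := (Real.log_le_iff_le_exp (by exact_mod_cast hS.card_pos)).2 hcard
  rw [div_le_iff₀ hs]
  have : (N * (c / s) + M * (b + s * B ^ 2)) * s = N * c + M * (s * b + s ^ 2 * B ^ 2) := by
    field_simp
  linarith

lemma comparison {μ : Measure (Vec N)} {f h : ℝ → ℝ} {B ε C δ : ℝ} (hN : 0 < N) (hμ : Carried μ)
    (hf : Measurable f) (hB : ∀ t, |f t| ≤ B) (hhm : Measurable h) (hhB : ∀ t, |h t| ≤ B)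
    (hC : 0 ≤ C) (hmod : ∀ u v, |h u - h v| ≤ ε + C * (u - v) ^ 2)
    (S S' : Finset (Vec N)) (hS : S.Nonempty) (hS' : S'.Nonempty)
    (hcov : ∀ u : Vec N, ‖u‖ = 1 → ∃ P ∈ S, ‖u - P‖ ≤ δ / 2)
    (hcov' : ∀ u : Vec N, ‖u‖ = 1 → ∃ P ∈ S', ‖u - P‖ ≤ 1 / 2) (g : Fin M → Vec N) :
    Real.log (partition μ f g) ≤ ((S.sup' hS fun P => ∑ a, h ⟪g a, P⟫) + M * ε +
      C * δ ^ 2 * (S'.sup' hS' fun P => ∑ a, ⟪g a, P⟫ ^ 2)) +
      Real.log (partition μ (fun t => f t - h t) g) := by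
  have := hμ.prob
  have hfhm : Measurable fun t => f t - h t := hf.sub hhm
  have hfh : ∀ t, |f t - h t| ≤ 2 * B := fun t => (abs_sub _ _).trans (by linarith [hB t, hhB t])
  set H := S.sup' hS fun P => ∑ a, h ⟪g a, P⟫
  set Q := S'.sup' hS' fun P => ∑ a, ⟪g a, P⟫ ^ 2
  have hQn : 0 ≤ Q := by
    obtain ⟨P', hP'⟩ := hS'
    exact (Finset.sum_nonneg fun a _ => sq_nonneg ⟪g a, P'⟫).trans
      (Finset.le_sup' (fun P => ∑ a, ⟪g a, P⟫ ^ 2) hP')
  have hQ0 : ∀ x : Vec N, ‖x‖ = √(N:ℝ) →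
      ∑ a, h (⟪g a, x⟫ / √(N:ℝ)) ≤ H + M * ε + C * δ ^ 2 * Q := by
    intro x hx
    simp only [arg_eq]
    set u := (√(N:ℝ))⁻¹ • x
    obtain ⟨P, hP, hd⟩ := hcov u (unit_of_norm hN hx)
    have h1 := quad_le hN g S' hS' hcov' (u - P)
    have h2 : ‖u - P‖ ^ 2 ≤ (δ / 2) ^ 2 := pow_le_pow_left₀ (norm_nonneg _) hd 2
    calc ∑ a, h ⟪g a, u⟫ ≤ ∑ a, (h ⟪g a, P⟫ + ε + C * ⟪g a, u - P⟫ ^ 2) := by
          refine Finset.sum_le_sum fun a _ => ?_
          have := (abs_le.1 (hmod ⟪g a, u⟫ ⟪g a, P⟫)).2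
          rw [← inner_sub_right] at this; linarith
      _ ≤ _ := by
          rw [Finset.sum_add_distrib, Finset.sum_add_distrib, ← Finset.mul_sum]
          simp only [Finset.sum_const, Finset.card_univ, Fintype.card_fin, nsmul_eq_mul]
          refine add_le_add (add_le_add (Finset.le_sup' (fun P => ∑ a, h ⟪g a, P⟫) hP) le_rfl) ?_
          calc C * ∑ a, ⟪g a, u - P⟫ ^ 2 ≤ C * (4 * Q * (δ / 2) ^ 2) :=
                mul_le_mul_of_nonneg_left (h1.trans (mul_le_mul_of_nonneg_left h2 (by linarith))) hC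
            _ = _ := by ring
  have hle : partition μ f g ≤
      Real.exp (H + M * ε + C * δ ^ 2 * Q) * partition μ (fun t => f t - h t) g := by
    simp only [partition, ← integral_const_mul]
    refine integral_mono_ae (integrable_energy hf hB g) ((integrable_energy hfhm hfh g).const_mul _)
      (hμ.norm_eq.mono fun x hx => ?_)
    simp only [← Real.exp_add, Finset.sum_sub_distrib]
    exact exp_le_exp.2 (by linarith [hQ0 x hx])
  have := Real.log_le_log (partition_pos hf hB g) hle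
  rwa [Real.log_mul (exp_pos _).ne' (partition_pos hfhm hfh g).ne', Real.log_exp] at this

lemma exp_sub_one_le {d C : ℝ} (hd : |d| ≤ C) : Real.exp d - 1 ≤ Real.exp C * |d| := by
  obtain ⟨hl, hu⟩ := abs_le.1 hd
  rcases le_total 0 d with hp | hp
  · rw [abs_of_nonneg hp]
    have h1 := Real.add_one_le_exp (-d)
    have h2 : Real.exp d ≤ Real.exp C := exp_le_exp.2 hu
    have h3 : Real.exp d * Real.exp (-d) = 1 := by rw [← Real.exp_add]; simp
    linarith [mul_le_mul_of_nonneg_left h1 (exp_pos d).le, mul_le_mul_of_nonneg_right h2 hp]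
  · exact (sub_nonpos.2 (Real.exp_le_one_iff.2 hp)).trans (by positivity)

lemma ann_remainder {d : ℝ → ℝ} {C ε : ℝ} (hd : Measurable d) (hb : ∀ t, |d t| ≤ C)
    (hi : ∫ t, |d t| ∂γ ≤ ε) : ann d ≤ Real.exp C * ε := by
  refine (Real.log_le_sub_one_of_pos (lt_of_lt_of_le (exp_pos _) (ann_aux hd hb).1)).trans ?_
  have i := integrable_exp_f hd hb
  have : ∫ t, Real.exp (d t) ∂γ - 1 = ∫ t, (Real.exp (d t) - 1) ∂γ := by
    rw [integral_sub i (integrable_const _)]; simp
  rw [this]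
  calc _ ≤ ∫ t, Real.exp C * |d t| ∂γ :=
        integral_mono (i.sub (integrable_const _)) ((integrable_bdd hd hb).abs.const_mul _)
          fun t => exp_sub_one_le (hb t)
    _ ≤ _ := by rw [integral_const_mul]; exact mul_le_mul_of_nonneg_left hi (exp_pos _).le

lemma div_choice {a x : ℝ} (ha : 0 ≤ a) (hx : 0 ≤ x) : a / (x + 1) * x ≤ a := by
  rw [div_mul_eq_mul_div, div_le_iff₀ (by linarith)]
  linarith

/-- Large pattern density: `E log Z ≤ M (E f + ε) + N · const`. -/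
lemma upper_bound {f : ℝ → ℝ} {B : ℝ} (hf : Measurable f) (hB : ∀ s, |f s| ≤ B) {ε : ℝ} (hε : 0 < ε) :
    ∃ K : ℝ, 0 ≤ K ∧ ∀ (N M : ℕ) (μ : Measure (Vec N)), 0 < N → Carried μ →
      Phi μ f M ≤ M * ((∫ s, f s ∂γ) + ε) + N * K := by
  have hB0 : 0 ≤ B := (abs_nonneg _).trans (hB 0)
  set e0 := ε / 7 with he0
  have he0pos : 0 < e0 := by positivity
  set ε' := e0 / (Real.exp (2 * B) + 1) with hε'
  have hε'pos : 0 < ε' := by positivity
  have hε'le : ε' ≤ e0 := div_le_self he0pos.le (by linarith [exp_pos (2*B)])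
  have hεexp : Real.exp (2 * B) * ε' ≤ e0 := by
    rw [mul_comm]; exact div_choice he0pos.le (exp_pos _).le
  obtain ⟨h, C, hC, hhc, hhB, hhi, hmod⟩ := exists_approx hf hB hε'pos
  have hhm : Measurable h := hhc.measurable
  set s := min (1 / (B + 1)) (e0 / (B ^ 2 + 1)) with hs
  have hs0 : 0 < s := lt_min (by positivity) (by positivity)
  have hsB : s * B ≤ 1 :=
    (mul_le_mul_of_nonneg_right (min_le_left _ _) hB0).trans (div_choice zero_le_one hB0)
  have hsB2 : s * B ^ 2 ≤ e0 :=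
    (mul_le_mul_of_nonneg_right (min_le_right _ _) (sq_nonneg B)).trans (div_choice he0pos.le (sq_nonneg B))
  have hL4 : 0 ≤ Real.log K4 := Real.log_nonneg one_le_K4
  set δ := min 1 (e0 / (9 * C * (Real.log K4 + 1) + 1)) with hδ
  have hδ0 : 0 < δ := lt_min one_pos (by positivity)
  have hδ1 : δ ≤ 1 := min_le_left _ _
  have hδ2 : δ ^ 2 * (9 * C * (Real.log K4 + 1)) ≤ e0 := by
    have h1 : δ * (9 * C * (Real.log K4 + 1)) ≤ e0 :=
      (mul_le_mul_of_nonneg_right (min_le_right _ _) (by positivity)).trans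
        (div_choice he0pos.le (by positivity))
    calc δ ^ 2 * (9 * C * (Real.log K4 + 1)) = δ * (δ * (9 * C * (Real.log K4 + 1))) := by ring
      _ ≤ 1 * e0 := mul_le_mul hδ1 h1 (by positivity) zero_le_one
      _ = e0 := one_mul _
  have hl4 : 0 ≤ Real.log 4 := Real.log_nonneg (by norm_num)
  refine ⟨(2 / δ ^ 2 + 1/2 + Real.log 4) / s + 9 * C * δ ^ 2 * (2 / (1:ℝ) ^ 2 + 1/2 + Real.log 4),
    by positivity, fun N M μ hN hμ => ?_⟩
  have := hμ.prob
  obtain ⟨S, hSne, hScov, hSnorm, hScard⟩ := exists_net hδ0 hN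
  obtain ⟨S', hS'ne, hS'cov, hS'norm, hS'card⟩ := exists_net (δ := 1) one_pos hN
  have hH := H_bound (M := M) S hSne (δ := δ) hs0 hsB hhm hhB hC hmod
    (fun P hP => (hSnorm P hP).trans (by linarith)) hScard
  have hQ := Q_bound (M := M) S' hS'ne hS'norm hS'card
  have hfhm : Measurable fun t => f t - h t := hf.sub hhm
  have hfh : ∀ t, |f t - h t| ≤ 2 * B := fun t => (abs_sub _ _).trans (by linarith [hB t, hhB t])
  have iH1 : Integrable (fun g => (S.sup' hSne fun P => ∑ a, h ⟪g a, P⟫) + M * ε') (patterns N M) :=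
    hH.1.add (integrable_const _)
  have iHQ : Integrable (fun g => (S.sup' hSne fun P => ∑ a, h ⟪g a, P⟫) + M * ε' +
      C * δ ^ 2 * (S'.sup' hS'ne fun P => ∑ a, ⟪g a, P⟫ ^ 2)) (patterns N M) :=
    iH1.add (hQ.1.const_mul _)
  have hmono : Phi μ f M ≤ _ := integral_mono (integrable_log_partition hf hB)
    (iHQ.add (integrable_log_partition hfhm hfh))
    (comparison hN hμ hf hB hhm hhB hC hmod S S' hSne hS'ne hScov hS'cov)
  simp only [Pi.add_apply] at hmono
  rw [integral_add iHQ (integrable_log_partition hfhm hfh), integral_add iH1 (hQ.1.const_mul _),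
    integral_add hH.1 (integrable_const _), integral_const_mul (C * δ ^ 2), integral_const, probReal_univ,
    one_smul] at hmono
  have hrem : Phi μ (fun t => f t - h t) M ≤ M * e0 := by
    have hg := gap_nonneg hN hμ hfhm hfh M
    have ha := (ann_remainder hfhm hfh hhi).trans hεexp
    unfold gap at hg
    linarith [mul_le_mul_of_nonneg_left ha (Nat.cast_nonneg (α := ℝ) M)]
  have hhf : (∫ t, h t ∂γ) - (∫ t, f t ∂γ) ≤ ε' := by
    rw [← integral_sub (integrable_bdd hhm hhB) (integrable_bdd hf hB)]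
    refine le_trans ?_ hhi
    exact integral_mono ((integrable_bdd hhm hhB).sub (integrable_bdd hf hB))
      ((integrable_bdd hf hB).sub (integrable_bdd hhm hhB)).abs fun t => by
        show h t - f t ≤ |f t - h t|
        linarith [neg_le_abs (f t - h t)]
  unfold Phi at hrem
  have hM0 : (0:ℝ) ≤ M := Nat.cast_nonneg _
  have hQ' := mul_le_mul_of_nonneg_left hQ.2 (show 0 ≤ C * δ ^ 2 by positivity)
  have a1 := mul_le_mul_of_nonneg_left hhf hM0
  have a2 := mul_le_mul_of_nonneg_left hsB2 hM0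
  have a3 := mul_le_mul_of_nonneg_left hε'le hM0
  have a4 := mul_le_mul_of_nonneg_left hδ2 hM0
  have a5 : 0 ≤ (M:ℝ) * (C * δ ^ 2) := by positivity
  have a7 : 0 ≤ (M:ℝ) * e0 := by positivity
  have a6 : (M:ℝ) * ε = 7 * (M * e0) := by rw [he0]; ring
  have hH2 := hH.2
  set X1 := ∫ g, (S.sup' hSne fun P => ∑ a, h ⟪g a, P⟫) ∂patterns N M
  set X2 := ∫ g, (S'.sup' hS'ne fun P => ∑ a, ⟪g a, P⟫ ^ 2) ∂patterns N M
  clear_value X1 X2
  linarith

end Vale.Agent.P157
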