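import Vale.Agent.P157.Pair

open MeasureTheory ProbabilityTheory Real
open scoped RealInnerProductSpace ENNReal

namespace Vale.Agent.P157

variable {N M : ℕ} {μ : Measure (Vec N)} {f : ℝ → ℝ} {B : ℝ}

lemma swap_pi {ι κ : Type*} [Fintype ι] [Fintype κ] :
    MeasurePreserving (fun (w : ι → κ → ℝ) (a : κ) (i : ι) => w i a)
      (Measure.pi fun _ : ι => Measure.pi fun _ : κ => γ)
      (Measure.pi fun _ : κ => Measure.pi fun _ : ι => γ) := by
  refine ⟨by fun_prop, ?_⟩
  set P := Measure.pi fun _ : ι × κ => γ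
  have h1 : (Measure.pi fun _ : ι => Measure.pi fun _ : κ => γ).map
      (fun w (p : ι × κ) => w p.1 p.2) = P := by
    refine (Measure.pi_eq fun s hs => ?_).symm
    rw [Measure.map_apply (by fun_prop) (MeasurableSet.univ_pi hs)]
    have : (fun w (p : ι × κ) => w p.1 p.2) ⁻¹' (Set.univ.pi s) =
        Set.univ.pi fun i => Set.univ.pi fun j => s (i, j) := by ext w; simp
    rw [this]; simp [Measure.pi_pi, Fintype.prod_prod_type]
  have h2 : (Measure.pi fun _ : κ => Measure.pi fun _ : ι => γ).map
      (fun z (p : ι × κ) => z p.2 p.1) = P := by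
    refine (Measure.pi_eq fun s hs => ?_).symm
    rw [Measure.map_apply (by fun_prop) (MeasurableSet.univ_pi hs)]
    have : (fun z (p : ι × κ) => z p.2 p.1) ⁻¹' (Set.univ.pi s) =
        Set.univ.pi fun j => Set.univ.pi fun i => s (i, j) := by
      ext z; simp only [Set.mem_preimage, Set.mem_univ_pi, Prod.forall]; exact forall_comm
    rw [this]; simp [Measure.pi_pi, Fintype.prod_prod_type_right]
  set inv := fun (p : ι × κ → ℝ) (a : κ) (i : ι) => p (i, a)
  have e1 : (fun (w : ι → κ → ℝ) (a : κ) (i : ι) => w i a) = inv ∘ (fun w (p : ι × κ) => w p.1 p.2) := rfl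
  rw [e1, ← Measure.map_map (by fun_prop) (by fun_prop), h1, ← h2,
    Measure.map_map (by fun_prop) (by fun_prop)]
  exact Measure.map_id

lemma preserving_columns (b : OrthonormalBasis (Fin N) ℝ (Vec N)) :
    MeasurePreserving (fun (w : Fin N → Fin M → ℝ) (a : Fin M) => ∑ i, w i a • b i)
      (Measure.pi fun _ : Fin N => Measure.pi fun _ : Fin M => γ) (patterns N M) := by
  have h : MeasurePreserving (fun z : Fin N → ℝ => ∑ i, z i • b i)
      (Measure.pi fun _ : Fin N => γ) (stdGaussian (Vec N)) :=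
    ⟨by fun_prop, (stdGaussian_eq_map_pi_orthonormalBasis b).symm⟩
  have h2 : MeasurePreserving (fun (z : Fin M → Fin N → ℝ) a => ∑ i, z a i • b i)
      (Measure.pi fun _ : Fin M => Measure.pi fun _ : Fin N => γ) (patterns N M) :=
    measurePreserving_pi (f := fun _ (z : Fin N → ℝ) => ∑ i, z i • b i) _ _ fun _ => h
  exact h2.comp swap_pi

lemma map_avg (hM : 0 < M) :
    MeasurePreserving (fun z : Fin M → ℝ => (∑ a, z a) / √(M:ℝ)) (Measure.pi fun _ : Fin M => γ) γ := by
  refine ⟨by fun_prop, ?_⟩
  set u : Vec M := WithLp.toLp 2 fun _ => (√(M:ℝ))⁻¹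
  have hu : ‖u‖ = 1 := by
    have hM' : (0:ℝ) < M := by exact_mod_cast hM
    rw [← sq_eq_sq₀ (norm_nonneg _) zero_le_one, EuclideanSpace.real_norm_sq_eq]
    simp [u, Real.sq_sqrt hM'.le, hM'.ne']
  conv_rhs => rw [← map_inner_stdGaussian u hu, ← map_pi_eq_stdGaussian]
  rw [Measure.map_map (by fun_prop) (by fun_prop)]
  congr 1; funext z
  simp [u, PiLp.inner_apply, div_eq_inv_mul]
  rw [Finset.mul_sum]

lemma exp_neg_le (s : ℝ) (hs : 0 ≤ s) : Real.exp (-s) ≤ 1 - s + s ^ 2 / 2 := by
  have h := Real.quadratic_le_exp_of_nonneg hs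
  rw [Real.exp_neg]
  have hpos : 0 < 1 + s + s ^ 2 / 2 := by positivity
  refine (inv_anti₀ hpos h).trans ?_
  rw [inv_le_iff_one_le_mul₀ hpos]
  nlinarith [sq_nonneg (s ^ 2)]

lemma memLp_gauss (p : NNReal) : MemLp (fun x : ℝ => x) p γ := memLp_id_gaussianReal p

lemma integrable_sq_gauss : Integrable (fun x : ℝ => x ^ 2) γ := by
  simpa using (memLp_gauss 2).integrable_norm_pow (p := 2) two_ne_zero

lemma integrable_four_gauss : Integrable (fun x : ℝ => x ^ 4) γ := by
  simpa [Even.pow_abs (show Even 4 by decide)] using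
    (memLp_gauss 4).integrable_norm_pow (p := 4) (by norm_num)

lemma integral_sq_gauss : ∫ x, x ^ 2 ∂γ = 1 := by
  have h := variance_id_gaussianReal (μ := 0) (v := 1)
  rw [variance_eq_integral (by fun_prop), show (∫ x, id x ∂gaussianReal 0 1) = 0 from integral_id_gaussianReal] at h
  simpa using h

lemma integrable_exp_abs' (c : ℝ) : Integrable (fun z => Real.exp (c * |z|)) γ := by
  refine ((integrable_exp_mul_gaussianReal c).add (integrable_exp_mul_gaussianReal (-c))).mono'
    (by fun_prop) (Filter.Eventually.of_forall fun z => ?_)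
  rw [Real.norm_eq_abs, abs_exp, Pi.add_apply]
  rcases abs_choice z with h | h <;> rw [h]
  · linarith [Real.exp_pos (-c * z)]
  · rw [mul_neg, ← neg_mul]; linarith [Real.exp_pos (c * z)]

/-- bound on the Laplace transform of `t²` -/
lemma exists_laplace_sq : ∃ C : ℝ, 0 ≤ C ∧ ∀ l, 0 ≤ l → ∫ t, Real.exp (-(l * t ^ 2)) ∂γ ≤ Real.exp (-l + C * l ^ 2) := by
  refine ⟨(∫ t, t ^ 4 ∂γ) / 2, div_nonneg (integral_nonneg fun t => by positivity) two_pos.le,
    fun l hl => le_trans ?_ (Real.add_one_le_exp _)⟩
  have hi : Integrable (fun t : ℝ => 1 - l * t ^ 2) γ := (integrable_const _).sub (integrable_sq_gauss.const_mul l)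
  calc ∫ t, Real.exp (-(l * t ^ 2)) ∂γ ≤ ∫ t, (1 - l * t ^ 2 + l ^ 2 / 2 * t ^ 4) ∂γ := by
        refine integral_mono (integrable_bdd (by fun_prop) (C := 1) fun t => ?_)
          (hi.add (integrable_four_gauss.const_mul _)) fun t => ?_
        · rw [abs_exp]; exact Real.exp_le_one_iff.2 (neg_nonpos.2 (by positivity))
        · refine (exp_neg_le _ (by positivity)).trans_eq ?_; ring
    _ = _ := by
        rw [integral_add hi (integrable_four_gauss.const_mul _),
          integral_sub (integrable_const _) (integrable_sq_gauss.const_mul l),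
          integral_const_mul, integral_const_mul, integral_sq_gauss]
        simp; ring

/-- quantitative gap for non-centred tilts -/
lemma exists_tilt (hf : Measurable f) (hB : ∀ s, |f s| ≤ B) :
    ∃ C₁ C₂ : ℝ, 0 ≤ C₁ ∧ 0 ≤ C₂ ∧ ∀ (N M : ℕ) (μ : Measure (Vec N)), 0 < N → 0 < M → Carried μ →
      ∀ l : ℝ, 0 ≤ l → 2 * l * |(∫ s, s * Real.exp (f s) ∂γ) / Real.exp (ann f)| ≤ 1 →
      M * (l * ((∫ s, s * Real.exp (f s) ∂γ) / Real.exp (ann f)) ^ 2) - M * (C₁ * l ^ 2)
        - N * (C₂ * l ^ 2) - l ≤ gap μ f M := by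
  obtain ⟨C₂, hC₂, hlap⟩ := exists_laplace_sq
  set m := Real.exp (ann f) with hm
  have hm0 : 0 < m := exp_pos _
  set k := (∫ s, s * Real.exp (f s) ∂γ) / m with hk
  set D2 := ∫ t, t ^ 2 * Real.exp |t| ∂γ with hD2
  have iD2 : Integrable (fun t => t ^ 2 * Real.exp |t|) γ := by
    refine ((integrable_exp_abs' 2).const_mul 2).mono' (by fun_prop) (Filter.Eventually.of_forall fun t => ?_)
    rw [Real.norm_eq_abs, abs_of_nonneg (by positivity), show 2 * |t| = |t| + |t| by ring, Real.exp_add,
      ← mul_assoc]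
    refine mul_le_mul_of_nonneg_right ?_ (exp_pos _).le
    have := Real.quadratic_le_exp_of_nonneg (abs_nonneg t)
    rw [sq_abs] at this; linarith [abs_nonneg t]
  have hD20 : 0 ≤ D2 := integral_nonneg fun t => by positivity
  set C₁ := 4 * k ^ 2 * (Real.exp B * D2) / m with hC₁
  refine ⟨C₁, C₂, by positivity, hC₂, fun N M μ hN hM hμ l hl hlk => ?_⟩
  have := hμ.prob
  have hM' : (0:ℝ) < M := by exact_mod_cast hM
  have hsM : √(M:ℝ) ^ 2 = M := Real.sq_sqrt hM'.le
  set W := fun g : Fin M → Vec N => Real.exp (-(l * ‖∑ a, g a‖ ^ 2 / M)) with hW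
  have hWm : Measurable W := by fun_prop
  have hW1 : ∀ g, W g ≤ 1 := fun g => Real.exp_le_one_iff.2 (neg_nonpos.2 (by positivity))
  set b0 := EuclideanSpace.basisFun (Fin N) ℝ
  have hnorm : ∀ (b : OrthonormalBasis (Fin N) ℝ (Vec N)) (w : Fin N → Fin M → ℝ),
      ‖∑ a, ∑ i, w i a • b i‖ ^ 2 / M = ∑ i, ((∑ a, w i a) / √(M:ℝ)) ^ 2 := by
    intro b w
    rw [Finset.sum_comm]
    simp only [← Finset.sum_smul, div_pow, hsM, ← Finset.sum_div]
    rw [← real_inner_self_eq_norm_sq, b.orthonormal.inner_sum]
    simp [sq]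
  set PP := Measure.pi fun _ : Fin N => Measure.pi fun _ : Fin M => γ
  have hnm : Measurable fun g : Fin M → Vec N => ‖∑ a, g a‖ ^ 2 / M := by fun_prop
  have hin : ∀ i : Fin N, MeasurePreserving (fun w : Fin N → Fin M → ℝ => (∑ a, w i a) / √(M:ℝ)) PP γ :=
    fun i => (map_avg hM).comp (measurePreserving_eval _ i)
  have ii : ∀ i : Fin N, Integrable (fun w : Fin N → Fin M → ℝ => ((∑ a, w i a) / √(M:ℝ)) ^ 2) PP :=
    fun i => ((hin i).integrable_comp integrable_sq_gauss.1).2 integrable_sq_gauss
  have hnI : Integrable (fun g : Fin M → Vec N => ‖∑ a, g a‖ ^ 2 / M) (patterns N M) := by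
    refine ((preserving_columns b0).integrable_comp hnm.aestronglyMeasurable).1 ?_
    simp only [Function.comp_def, hnorm]
    exact integrable_finsetSum _ fun i _ => ii i
  have hnE : ∫ g, ‖∑ a, g a‖ ^ 2 / M ∂patterns N M = N := by
    rw [← (preserving_columns (M := M) b0).map_eq,
      integral_map (preserving_columns b0).measurable.aemeasurable hnm.aestronglyMeasurable]
    simp only [hnorm]
    rw [integral_finsetSum _ fun i _ => ii i]
    have : ∀ i : Fin N, ∫ w, ((∑ a, w i a) / √(M:ℝ)) ^ 2 ∂PP = 1 := fun i => by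
      rw [← integral_sq_gauss, ← (hin i).map_eq,
        integral_map (hin i).measurable.aemeasurable (by fun_prop)]
    rw [Finset.sum_congr rfl fun i _ => this i]; simp
  have hlogW : ∀ g, Real.log (W g) = -(l * (‖∑ a, g a‖ ^ 2 / M)) := fun g => by
    rw [hW, Real.log_exp]; ring
  set Z := partition (M := M) μ f
  have hZp : ∀ g, 0 < Z g := partition_pos hf hB
  have iW : Integrable (fun g => Real.log (W g)) (patterns N M) := by
    simp only [hlogW]; exact (hnI.const_mul l).neg
  have hlog : Integrable (fun g => Real.log (Z g * W g)) (patterns N M) := by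
    refine ((integrable_log_partition (μ := μ) hf hB).add iW).congr (Filter.Eventually.of_forall fun g => ?_)
    simp only [Pi.add_apply]
    rw [Real.log_mul (hZp g).ne' (exp_pos _).ne']
  have hZW : Integrable (fun g => Z g * W g) (patterns N M) :=
    integrable_bdd ((measurable_partition hf).mul hWm) (C := Real.exp (M * B)) fun g => by
      rw [abs_of_pos (mul_pos (hZp g) (exp_pos _))]
      exact (mul_le_of_le_one_right (hZp g).le (hW1 g)).trans (partition_bounds hf hB g).2
  have jensen := integral_log_le (fun g => mul_pos (hZp g) (exp_pos _)) hZW hlog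
  have hsplit : ∫ g, Real.log (Z g * W g) ∂patterns N M = Phi μ f M - l * N := by
    rw [show (fun g => Real.log (Z g * W g)) = fun g => Real.log (Z g) + Real.log (W g) from
      funext fun g => Real.log_mul (hZp g).ne' (exp_pos _).ne', integral_add (integrable_log_partition hf hB) iW]
    simp only [hlogW]
    rw [integral_neg, integral_const_mul, hnE, Phi]; ring
  rw [hsplit] at jensen
  set E1 := Real.exp (M * (ann f - l * k ^ 2 + C₁ * l ^ 2)) with hE1
  set E2 := Real.exp (((N - 1 : ℕ):ℝ) * (-l + C₂ * l ^ 2)) with hE2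
  have hmain : ∫ g, Z g * W g ∂patterns N M ≤ E1 * E2 := by
    have hI : Integrable (fun p : (Fin M → Vec N) × Vec N =>
        Real.exp (∑ a, f (⟪p.1 a, p.2⟫ / √(N:ℝ))) * W p.1) ((patterns N M).prod μ) :=
      integrable_bdd ((measurable_energy hf).mul (hWm.comp measurable_fst)) (C := Real.exp (M * B)) fun p => by
        rw [abs_mul, abs_exp, abs_of_pos (show 0 < W p.1 from exp_pos _)]
        exact (mul_le_of_le_one_right (exp_pos _).le (hW1 _)).trans
          (exp_le_exp.2 (abs_le.1 (abs_sum_f_le hB _ _)).2)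
    have e0 : ∀ g, Z g * W g = ∫ x, Real.exp (∑ a, f (⟪g a, x⟫ / √(N:ℝ))) * W g ∂μ := fun g => by
      rw [integral_mul_const]; rfl
    simp only [e0]
    rw [integral_integral_swap hI]
    calc _ ≤ ∫ _x, E1 * E2 ∂μ := integral_mono_ae hI.integral_prod_right (integrable_const _)
          (hμ.norm_eq.mono fun x hx => ?_)
      _ = _ := by simp
    have hu := unit_of_norm hN hx
    set v := (√(N:ℝ))⁻¹ • x with hv
    obtain ⟨b, hb⟩ := Orthonormal.exists_orthonormalBasis_extension_of_card_eq (𝕜 := ℝ) (ι := Fin N)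
      (v := fun _ : Fin N => v) (s := {⟨0, hN⟩}) (by simp) (by
        constructor
        · intro i; simpa [Set.domRestrict] using hu
        · intro i j hij; exact absurd (Subsingleton.elim i j) hij)
    set i₀ : Fin N := ⟨0, hN⟩
    have hbi : b i₀ = v := hb _ (Set.mem_singleton _)
    set T := fun (w : Fin N → Fin M → ℝ) (a : Fin M) => ∑ i, w i a • b i
    have hTv : ∀ w a, ⟪T w a, v⟫ = w i₀ a := fun w a => by
      rw [← hbi, real_inner_comm]
      exact b.orthonormal.inner_right_fintype (fun i => w i a) i₀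
    show ∫ g, Real.exp (∑ a, f (⟪g a, x⟫ / √(N:ℝ))) * W g ∂patterns N M ≤ _
    have hgm : Measurable fun g : Fin M → Vec N => Real.exp (∑ a, f (⟪g a, x⟫ / √(N:ℝ))) * W g :=
      ((measurable_energy hf).comp (measurable_id.prodMk measurable_const)).mul hWm
    rw [← (preserving_columns (M := M) b).map_eq,
      integral_map (preserving_columns b).measurable.aemeasurable hgm.aestronglyMeasurable]
    set φ := fun z : Fin M → ℝ => Real.exp (-(l * ((∑ a, z a) / √(M:ℝ)) ^ 2)) with hφ
    set ψ := fun z : Fin M → ℝ => Real.exp (∑ a, f (z a)) * φ z with hψ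
    have hint : ∀ w : Fin N → Fin M → ℝ,
        Real.exp (∑ a, f (⟪T w a, x⟫ / √(N:ℝ))) * W (T w) =
          ∏ i, (if i = i₀ then ψ (w i) else φ (w i)) := by
      intro w
      rw [← Finset.mul_prod_erase _ _ (Finset.mem_univ i₀), if_pos rfl,
        Finset.prod_congr rfl (g := fun i => φ (w i)) (fun i hi => if_neg (Finset.ne_of_mem_erase hi)),
        hψ]
      simp only [arg_eq, ← hv, hTv, mul_assoc]
      congr 1
      rw [Finset.mul_prod_erase _ (fun i => φ (w i)) (Finset.mem_univ i₀)]
      simp only [hW, hφ, ← Real.exp_sum, Finset.sum_neg_distrib, ← Finset.mul_sum]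
      congr 1
      rw [mul_div_assoc, hnorm b w]
    simp only [T] at hint ⊢
    simp only [hint]
    rw [integral_fintype_prod_eq_prod (fun i (z : Fin M → ℝ) => if i = i₀ then ψ z else φ z),
      ← Finset.mul_prod_erase _ _ (Finset.mem_univ i₀)]
    simp only [if_true]
    rw [Finset.prod_congr rfl (g := fun _ => ∫ z, φ z ∂Measure.pi (fun _ : Fin M => γ))
      (fun i hi => by simp [Finset.ne_of_mem_erase hi])]
    simp only [Finset.prod_const, Finset.card_erase_of_mem (Finset.mem_univ i₀), Finset.card_univ, Fintype.card_fin]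
    have hφ0 : 0 ≤ ∫ z, φ z ∂Measure.pi (fun _ : Fin M => γ) := integral_nonneg fun z => (exp_pos _).le
    refine mul_le_mul ?_ ?_ (pow_nonneg hφ0 _) (exp_pos _).le
    · set c := -(2 * l * k) with hc
      have hc1 : |c| ≤ 1 := by rw [hc, abs_neg, abs_mul, abs_of_nonneg (by positivity : (0:ℝ) ≤ 2 * l)]; exact hlk
      have hpt : ∀ z, ψ z ≤ Real.exp (l * k ^ 2 * M) * ∏ a, (Real.exp (f (z a)) * Real.exp (c * z a)) := by
        intro z
        simp only [hψ, hφ]
        rw [Finset.prod_mul_distrib, ← Real.exp_sum, ← Real.exp_sum, ← Real.exp_add, ← Real.exp_add,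
          ← Real.exp_add, ← Finset.mul_sum]
        refine exp_le_exp.2 ?_
        rw [div_pow, hsM]
        have h := mul_nonneg hl (sq_nonneg ((∑ a, z a) / √(M:ℝ) - k * √(M:ℝ)))
        have hsm : √(M:ℝ) ≠ 0 := by positivity
        rw [sub_sq, div_pow, mul_pow, hsM,
          show 2 * ((∑ a, z a) / √(M:ℝ)) * (k * √(M:ℝ)) = 2 * k * ∑ a, z a by field_simp] at h
        rw [hc]; linarith
      have ie : Integrable (fun t => Real.exp (f t) * Real.exp (c * t)) γ :=
        (integrable_exp_mul_gaussianReal c).bdd_mul (c := Real.exp B)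
          (Real.measurable_exp.comp hf).aestronglyMeasurable (Filter.Eventually.of_forall fun t => by
            rw [Real.norm_eq_abs, abs_exp]; exact exp_le_exp.2 (abs_le.1 (hB t)).2)
      have ip : Integrable (fun z : Fin M → ℝ => ∏ a, (Real.exp (f (z a)) * Real.exp (c * z a)))
          (Measure.pi fun _ => γ) := Integrable.fintype_prod fun _ => ie
      refine (integral_mono_of_nonneg (Filter.Eventually.of_forall fun z => by positivity)
        (ip.const_mul _) (Filter.Eventually.of_forall hpt)).trans ?_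
      rw [integral_const_mul, integral_fintype_prod_eq_pow (fun t => Real.exp (f t) * Real.exp (c * t)),
        Fintype.card_fin]
      have iU : Integrable (fun t => t * Real.exp (f t)) γ := by
        refine Integrable.mul_bdd ((memLp_gauss 1).integrable (by norm_num)) (c := Real.exp B)
          (Real.measurable_exp.comp hf).aestronglyMeasurable (Filter.Eventually.of_forall fun t => ?_)
        rw [Real.norm_eq_abs, abs_exp]; exact exp_le_exp.2 (abs_le.1 (hB t)).2
      have i3 : Integrable (fun t => Real.exp (f t) + c * (t * Real.exp (f t))) γ :=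
        (integrable_exp_f hf hB).add (iU.const_mul c)
      have hle : ∫ t, Real.exp (f t) * Real.exp (c * t) ∂γ ≤ m + c * (k * m) + c ^ 2 * (Real.exp B * D2) := by
        calc _ ≤ ∫ t, (Real.exp (f t) + c * (t * Real.exp (f t)) +
              c ^ 2 * (Real.exp B * (t ^ 2 * Real.exp |t|))) ∂γ := by
              refine integral_mono ie (i3.add ((iD2.const_mul _).const_mul _)) fun t => ?_
              have h := (abs_le.1 (abs_exp_sub (c * t))).2
              have h2 : Real.exp |c * t| ≤ Real.exp |t| := exp_le_exp.2 (by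
                rw [abs_mul]; exact mul_le_of_le_one_left (abs_nonneg t) hc1)
              have h3 : Real.exp (f t) ≤ Real.exp B := exp_le_exp.2 (abs_le.1 (hB t)).2
              have h4 : Real.exp (c * t) ≤ 1 + c * t + (c * t) ^ 2 * Real.exp |t| := by
                linarith [mul_le_mul_of_nonneg_left h2 (sq_nonneg (c * t))]
              have := mul_le_mul_of_nonneg_left h4 (exp_pos (f t)).le
              have := mul_le_mul_of_nonneg_right h3 (show 0 ≤ (c * t) ^ 2 * Real.exp |t| by positivity)
              simp only [Pi.add_apply]; linarith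
          _ = _ := by
              rw [integral_add i3 ((iD2.const_mul _).const_mul _),
                integral_add (integrable_exp_f hf hB) (iU.const_mul c), integral_const_mul,
                integral_const_mul, integral_const_mul, ← exp_ann hf hB, hk, hD2,
                div_mul_cancel₀ _ hm0.ne']
      have hle2 : ∫ t, Real.exp (f t) * Real.exp (c * t) ∂γ ≤ Real.exp (ann f - 2 * l * k ^ 2 + C₁ * l ^ 2) := by
        refine hle.trans ?_
        have e : m + c * (k * m) + c ^ 2 * (Real.exp B * D2) = m * ((-2 * l * k ^ 2 + C₁ * l ^ 2) + 1) := by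
          rw [hC₁, hc]; field_simp; ring
        rw [e, show ann f - 2 * l * k ^ 2 + C₁ * l ^ 2 = ann f + (-2 * l * k ^ 2 + C₁ * l ^ 2) by ring,
          Real.exp_add]
        exact mul_le_mul_of_nonneg_left (Real.add_one_le_exp _) hm0.le
      refine (mul_le_mul_of_nonneg_left (pow_le_pow_left₀ (integral_nonneg fun t => by positivity) hle2 M)
        (exp_pos _).le).trans (le_of_eq ?_)
      rw [hE1, ← Real.exp_nat_mul, ← Real.exp_add]; congr 1; ring
    · rw [hE2, Real.exp_nat_mul]
      refine pow_le_pow_left₀ hφ0 (le_of_eq_of_le ?_ (hlap l hl)) _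
      simp only [hφ]
      conv_rhs => rw [← (map_avg hM).map_eq]
      rw [integral_map (map_avg hM).measurable.aemeasurable (by fun_prop)]
  have hEp : 0 < ∫ g, Z g * W g ∂patterns N M := by
    rw [integral_pos_iff_support_of_nonneg (fun g => (mul_pos (hZp g) (exp_pos _)).le) hZW]
    have : Function.support (fun g => Z g * W g) = Set.univ := by
      ext g; simp [W, (hZp g).ne']
    rw [this]; simp
  have := jensen.trans (Real.log_le_log hEp hmain)
  rw [hE1, hE2, ← Real.exp_add, Real.log_exp, Nat.cast_sub (show 1 ≤ N from hN)] at this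
  push_cast at this
  unfold gap
  nlinarith [mul_nonneg hC₂ (sq_nonneg l)]

end Vale.Agent.P157
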