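import Vale.Agent.P157.Overlap
import Vale.Agent.P157.Tilt
import Vale.Agent.P157.Upper

open MeasureTheory ProbabilityTheory Real Filter
open scoped RealInnerProductSpace ENNReal Topology

namespace Vale.Agent.P157

lemma spaces_good {μ : ∀ N, Measure (Vec N)} (h : μ = isingUniform ∨ μ = sphereUniform) :
    (∀ᶠ N in atTop, 0 < N ∧ Carried (μ N)) ∧ ∀ᶠ N in atTop, OverlapBound (μ N) (K4 + 4) := by
  have hK : 1 ≤ K4 := one_le_K4
  rcases h with rfl | rfl
  · constructor
    · filter_upwards [eventually_gt_atTop 0] with N hN using ⟨hN, carried_ising N⟩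
    · filter_upwards [eventually_gt_atTop 0] with N hN
      have h := overlap_ising (N := N) hN
      unfold OverlapBound at h ⊢; linarith
  · constructor
    · filter_upwards [eventually_gt_atTop 0] with N hN using ⟨hN, carried_sphere hN⟩
    · filter_upwards [overlap_sphere] with N h
      unfold OverlapBound at h ⊢; linarith

lemma floor_ratio {α : ℝ} (hα : 0 ≤ α) :
    Tendsto (fun N : ℕ => (⌊α * N⌋₊ : ℝ) / N) atTop (𝓝 α) :=
  (tendsto_nat_floor_mul_div_atTop hα).comp tendsto_natCast_atTop_atTop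

lemma pressure_gap {N : ℕ} (μ : Measure (Vec N)) (f : ℝ → ℝ) (M : ℕ) :
    pressure μ f M = (M : ℝ) / N * ann f - gap μ f M / N := by
  rw [pressure_eq, gap]; ring

lemma tendsto_pressure_iff (μ : ∀ N, Measure (Vec N)) (f : ℝ → ℝ) {α : ℝ} (hα : 0 ≤ α) :
    Tendsto (fun N : ℕ => pressure (μ N) f ⌊α * N⌋₊) atTop (𝓝 (α * ann f)) ↔
      Tendsto (fun N : ℕ => gap (μ N) f ⌊α * N⌋₊ / N) atTop (𝓝 0) := by
  have h1 := (floor_ratio hα).mul_const (ann f)
  constructor
  · intro h
    refine Tendsto.congr (fun N => ?_) (by simpa using h1.sub h)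
    rw [pressure_gap]; ring
  · intro h
    refine Tendsto.congr (fun N => (pressure_gap _ _ _).symm) (by simpa using h1.sub h)

lemma ann_gt_mean {f : ℝ → ℝ} {B : ℝ} (hf : Measurable f) (hB : ∀ s, |f s| ≤ B)
    (hnc : ¬ ∃ c, f =ᵐ[γ] fun _ => c) : ∫ s, f s ∂γ < ann f := by
  by_contra hle
  push Not at hle
  apply hnc
  set d := fun s => Real.exp (f s - ann f) - 1 - (f s - ann f) with hd
  have i1 : Integrable (fun s => Real.exp (f s - ann f)) γ := by
    simp only [Real.exp_sub]; exact (integrable_exp_f hf hB).div_const _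
  have i2 : Integrable (fun s => f s - ann f) γ := (integrable_bdd hf hB).sub (integrable_const _)
  have i12 : Integrable (fun s => Real.exp (f s - ann f) - 1) γ := i1.sub (integrable_const _)
  have hd0 : ∀ s, 0 ≤ d s := fun s => by simp only [hd]; linarith [Real.add_one_le_exp (f s - ann f)]
  have hI : ∫ s, d s ∂γ = -(∫ s, f s ∂γ - ann f) := by
    simp only [hd]
    rw [integral_sub i12 i2, integral_sub i1 (integrable_const _),
      integral_sub (integrable_bdd hf hB) (integrable_const _)]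
    simp only [Real.exp_sub, integral_div, ← exp_ann hf hB, div_self (exp_pos (ann f)).ne']
    simp
  have hz : ∫ s, d s ∂γ = 0 := le_antisymm (by rw [hI]; linarith) (integral_nonneg hd0)
  refine ⟨ann f, ((integral_eq_zero_iff_of_nonneg hd0 (i12.sub i2)).1 hz).mono fun s hs => ?_⟩
  by_contra hne
  have := Real.add_one_lt_exp (sub_ne_zero.2 hne)
  simp only [hd, Pi.zero_apply] at hs
  linarith

variable {μ : ∀ N, Measure (Vec N)} {f : ℝ → ℝ} {B : ℝ}

lemma large_density (hμ : ∀ᶠ N in atTop, 0 < N ∧ Carried (μ N)) (hf : Measurable f) (hB : ∀ s, |f s| ≤ B)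
    {ε : ℝ} (hε : 0 < ε) :
    ∃ α₀ : ℝ, 0 < α₀ ∧ ∀ α : ℝ, α ≥ α₀ → ∀ᶠ N : ℕ in atTop,
      |pressure (μ N) f ⌊α * N⌋₊ - α * ∫ s, f s ∂γ| ≤ ε * α := by
  obtain ⟨K, hK, hup⟩ := upper_bound hf hB (show 0 < ε / 2 by linarith)
  set Ef := ∫ s, f s ∂γ with hEf
  refine ⟨4 * (K + 1) / ε, by positivity, fun α hα => ?_⟩
  have hα0 : 0 < α := lt_of_lt_of_le (by positivity) hα
  have hαK : 4 * (K + 1) ≤ ε * α := by rw [ge_iff_le, div_le_iff₀ hε] at hα; linarith
  have e1 := ((floor_ratio hα0.le).mul_const (Ef + ε / 2)).eventually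
    (eventually_le_nhds (show α * (Ef + ε / 2) < α * (Ef + ε / 2) + 1 by linarith))
  have e2 := ((floor_ratio hα0.le).mul_const Ef).eventually
    (eventually_ge_nhds (show α * Ef - 1 < α * Ef by linarith))
  filter_upwards [hμ, e1, e2] with N ⟨hN, hc⟩ h1 h2
  have := hc.prob
  set M := ⌊α * N⌋₊
  have hN' : (0:ℝ) < N := by exact_mod_cast hN
  have hlow : (M:ℝ) * Ef ≤ Phi (μ N) f M := by
    have hI : Integrable (fun p : (Fin M → Vec N) × Vec N => ∑ a, f (⟪p.1 a, p.2⟫ / √(N:ℝ)))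
        ((patterns N M).prod (μ N)) := by
      refine integrable_bdd (Finset.measurable_sum _ fun a _ => hf.comp (by fun_prop)) (C := M * B)
        fun p => abs_sum_f_le hB _ _
    calc (M:ℝ) * Ef = ∫ g, ∫ x, ∑ a, f (⟪g a, x⟫ / √(N:ℝ)) ∂μ N ∂patterns N M := by
          rw [integral_integral_swap hI, ← integral_congr_ae (f := fun _ => (M:ℝ) * Ef)]
          · simp
          · filter_upwards [hc.norm_eq] with x hx
            have hu := unit_of_norm hN hx
            rw [integral_finsetSum]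
            · have : ∀ a : Fin M, ∫ g, f (⟪g a, x⟫ / √(N:ℝ)) ∂patterns N M = Ef := fun a => by
                unfold patterns
                rw [integral_comp_eval (μ := fun _ : Fin M => stdGaussian (Vec N)) (i := a)
                  (f := fun h : Vec N => f (⟪h, x⟫ / √(N:ℝ))) (hf.comp (by fun_prop)).aestronglyMeasurable]
                simp only [arg_eq]
                exact integral_stdGaussian_arg hf.aestronglyMeasurable _ hu
              simp [this]
            · exact fun a _ => integrable_bdd (hf.comp (by fun_prop)) fun g => hB _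
      _ ≤ Phi (μ N) f M := by
          refine integral_mono hI.integral_prod_left (integrable_log_partition hf hB) fun g => ?_
          have h := integral_log_le (ν := μ N) (X := fun x => Real.exp (∑ a, f (⟪g a, x⟫ / √(N:ℝ))))
            (fun x => exp_pos _) (integrable_energy hf hB g) (by
              simp only [Real.log_exp]
              exact integrable_bdd (Finset.measurable_sum _ fun a _ => hf.comp (by fun_prop))
                fun x => abs_sum_f_le hB _ _)
          simpa [partition] using h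
  have hhigh := hup N M (μ N) hN hc
  rw [pressure_eq, abs_le]
  have p1 : Phi (μ N) f M / N ≤ (M:ℝ) / N * (Ef + ε / 2) + K := by
    rw [div_le_iff₀ hN']
    have : ((M:ℝ) / N * (Ef + ε / 2) + K) * N = M * (Ef + ε / 2) + N * K := by field_simp
    linarith
  have p2 : (M:ℝ) / N * Ef ≤ Phi (μ N) f M / N := by
    rw [div_mul_eq_mul_div]; exact div_le_div_of_nonneg_right hlow hN'.le
  constructor <;> linarith

lemma tilt_strict (hμ : ∀ᶠ N in atTop, 0 < N ∧ Carried (μ N)) (hf : Measurable f) (hB : ∀ s, |f s| ≤ B)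
    (h1 : ∫ s, s * Real.exp (f s) ∂γ ≠ 0) {α : ℝ} (hα : 0 < α) :
    ∃ δ, 0 < δ ∧ ∀ᶠ N : ℕ in atTop, pressure (μ N) f ⌊α * N⌋₊ ≤ α * ann f - δ := by
  obtain ⟨C₁, C₂, hC₁, hC₂, ht⟩ := exists_tilt hf hB
  set k := (∫ s, s * Real.exp (f s) ∂γ) / Real.exp (ann f)
  have hk : k ≠ 0 := div_ne_zero h1 (exp_pos _).ne'
  have hk2 : 0 < k ^ 2 := by positivity
  set l := min (1 / (2 * (|k| + 1))) (α * k ^ 2 / (2 * (α * C₁ + C₂ + 1))) with hl
  have hl0 : 0 < l := lt_min (by positivity) (by positivity)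
  have hlk : 2 * l * |k| ≤ 1 := by
    have h : l * (2 * (|k| + 1)) ≤ 1 := (le_div_iff₀ (by positivity)).1 (min_le_left _ _)
    linarith
  have hl2 : l * (α * C₁ + C₂ + 1) ≤ α * k ^ 2 / 2 := by
    have h : l * (2 * (α * C₁ + C₂ + 1)) ≤ α * k ^ 2 := (le_div_iff₀ (by positivity)).1 (min_le_right _ _)
    linarith
  have hl3 := mul_le_mul_of_nonneg_left hl2 hl0.le
  set d := α * (l * k ^ 2) - α * (C₁ * l ^ 2) - C₂ * l ^ 2 with hd
  have hdpos : 0 < d := by
    have hp : 0 < α * (l * k ^ 2) := by positivity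
    have hp2 : 0 ≤ l ^ 2 := sq_nonneg l
    rw [hd]; linarith
  refine ⟨d / 2, by linarith, ?_⟩
  have lim : Tendsto (fun N : ℕ => (⌊α * N⌋₊ : ℝ) / N * ann f - ((⌊α * N⌋₊ : ℝ) / N * (l * k ^ 2) -
      (⌊α * N⌋₊ : ℝ) / N * (C₁ * l ^ 2) - C₂ * l ^ 2 - l / N)) atTop (𝓝 (α * ann f - d)) := by
    have h := floor_ratio hα.le
    have hz : Tendsto (fun N : ℕ => l / (N:ℝ)) atTop (𝓝 0) := tendsto_const_div_atTop_nhds_zero_nat l
    simpa [hd] using (h.mul_const (ann f)).sub ((((h.mul_const _).sub (h.mul_const _)).sub_const _).sub hz)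
  filter_upwards [hμ, lim.eventually (eventually_le_nhds (show α * ann f - d < α * ann f - d / 2 by linarith)),
    (tendsto_nat_floor_atTop.comp ((tendsto_natCast_atTop_atTop (R := ℝ)).const_mul_atTop hα)).eventually
      (eventually_gt_atTop 0)] with N ⟨hN, hc⟩ hle hM
  have hN' : (0:ℝ) < N := by exact_mod_cast hN
  have h := ht N ⌊α * N⌋₊ (μ N) hN hM hc l hl0.le hlk
  have h2 := div_le_div_of_nonneg_right h hN'.le
  refine le_trans ?_ hle
  rw [pressure_gap]
  refine sub_le_sub_left (le_trans (le_of_eq ?_) h2) _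
  field_simp

lemma phase (h : μ = isingUniform ∨ μ = sphereUniform) (hf : Measurable f) (hB : ∀ s, |f s| ≤ B)
    (hnc : ¬ ∃ c, f =ᵐ[γ] fun _ => c) :
    ∃ αc : ℝ, 0 ≤ αc ∧
      (∀ α : ℝ, 0 < α → (Tendsto (fun N : ℕ => pressure (μ N) f ⌊α * N⌋₊) atTop (𝓝 (α * ann f)) ↔ α ≤ αc)) ∧
      (0 < αc ↔ ∫ s, s * Real.exp (f s) ∂γ = 0) ∧
      (∫ s, s * Real.exp (f s) ∂γ = 0 → ∀ r, (∀ s t, f s - f t ≤ r) →
        (1 / (8 * Cpair)) / (Real.exp r - 1) ^ 2 ≤ αc) := by
  obtain ⟨hμ, hov⟩ := spaces_good h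
  have hB0 : 0 ≤ B := (abs_nonneg _).trans (hB 0)
  set G := fun α : ℝ => Tendsto (fun N : ℕ => gap (μ N) f ⌊α * N⌋₊ / N) atTop (𝓝 0)
  have hnn : ∀ α : ℝ, ∀ᶠ N : ℕ in atTop, 0 ≤ gap (μ N) f ⌊α * N⌋₊ / N := fun α =>
    hμ.mono fun N ⟨hN, hc⟩ => div_nonneg (gap_nonneg hN hc hf hB _) (Nat.cast_nonneg _)
  obtain ⟨K, hK, hup⟩ := upper_bound hf hB (show 0 < (ann f - ∫ s, f s ∂γ) / 2 by
    linarith [ann_gt_mean hf hB hnc])
  set η := (ann f - ∫ s, f s ∂γ) / 2 with hη
  have hη0 : 0 < η := by have := ann_gt_mean hf hB hnc; rw [hη]; linarith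
  set S := {α : ℝ | α = 0 ∨ (0 < α ∧ G α)} with hS
  have hbdd : BddAbove S := by
    refine ⟨K / η, ?_⟩
    rintro α (rfl | ⟨hα, hG⟩)
    · positivity
    have lim : Tendsto (fun N : ℕ => (⌊α * N⌋₊ : ℝ) / N * η - K) atTop (𝓝 (α * η - K)) :=
      ((floor_ratio hα.le).mul_const η).sub_const K
    have := le_of_tendsto_of_tendsto lim hG (hμ.mono fun N ⟨hN, hc⟩ => by
      have hN' : (0:ℝ) < N := by exact_mod_cast hN
      have h := hup N ⌊α * N⌋₊ (μ N) hN hc
      show _ ≤ gap (μ N) f _ / _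
      rw [le_div_iff₀ hN', gap]
      have : ((⌊α * N⌋₊ : ℝ) / N * η - K) * N = (⌊α * N⌋₊ : ℝ) * η - K * N := by field_simp
      rw [this, hη]; rw [hη] at h; linarith)
    rw [le_div_iff₀ hη0]; linarith
  set αc := sSup S with hαc
  have hc0 : 0 ≤ αc := le_csSup hbdd (Or.inl rfl)
  have hiff : ∀ α > 0, (G α ↔ α ≤ αc) := by
    intro α hα
    refine ⟨fun hG => le_csSup hbdd (Or.inr ⟨hα, hG⟩), fun hle => ?_⟩
    show Tendsto _ _ _
    rw [Metric.tendsto_nhds]
    intro e he
    obtain ⟨β, hβ, hlt⟩ := exists_lt_of_lt_csSup (s := S) ⟨0, Or.inl rfl⟩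
      (show α - min α (e / (4 * (B + 1))) < αc by
        linarith [lt_min hα (show 0 < e / (4 * (B + 1)) by positivity)])
    rcases hβ with rfl | ⟨hβ0, hGβ⟩
    · linarith [min_le_left α (e / (4 * (B + 1)))]
    have hmin := min_le_right α (e / (4 * (B + 1)))
    have hBe : 2 * B * (e / (4 * (B + 1))) ≤ e / 2 := by
      rw [mul_div_assoc', div_le_iff₀ (by positivity)]
      have : 0 ≤ e * B := mul_nonneg he.le hB0
      linarith
    have bound : ∀ᶠ N : ℕ in atTop, gap (μ N) f ⌊α * N⌋₊ / N ≤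
        gap (μ N) f ⌊β * N⌋₊ / N + 2 * B * max 0 ((⌊α * N⌋₊ : ℝ) / N - (⌊β * N⌋₊ : ℝ) / N) := by
      filter_upwards [hμ] with N ⟨hN, hc⟩
      have hN' : (0:ℝ) < N := by exact_mod_cast hN
      rcases le_total ⌊α * N⌋₊ ⌊β * N⌋₊ with hle' | hle'
      · have h := div_le_div_of_nonneg_right (gap_le_gap hN hc hf hB hle').1 hN'.le
        have h0 : 0 ≤ 2 * B * max 0 ((⌊α * N⌋₊ : ℝ) / N - (⌊β * N⌋₊ : ℝ) / N) := by positivity
        linarith
      · have h := div_le_div_of_nonneg_right (gap_le_gap hN hc hf hB hle').2 hN'.le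
        refine h.trans ?_
        rw [add_div, mul_div_assoc, sub_div]
        exact add_le_add le_rfl (mul_le_mul_of_nonneg_left (le_max_right _ _) (by positivity))
    have lim := hGβ.add (((tendsto_const_nhds (x := (0:ℝ))).max
      ((floor_ratio hα.le).sub (floor_ratio hβ0.le))).const_mul (2 * B))
    have hlim : 0 + 2 * B * max 0 (α - β) < e := by
      have : max 0 (α - β) ≤ e / (4 * (B + 1)) := max_le (by positivity) (by linarith)
      linarith [mul_le_mul_of_nonneg_left this (show 0 ≤ 2 * B by positivity)]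
    filter_upwards [bound, lim.eventually (eventually_lt_nhds hlim), hnn α] with N h1 h2 h3
    rw [Real.dist_eq, sub_zero, abs_of_nonneg h3]
    linarith
  have hlower : ∫ s, s * Real.exp (f s) ∂γ = 0 → ∀ r, (∀ s t, f s - f t ≤ r) →
      (1 / (8 * Cpair)) / (Real.exp r - 1) ^ 2 ≤ αc := by
    intro h1 r hr
    set a := (1 / (8 * Cpair)) / (Real.exp r - 1) ^ 2
    by_cases hκ : Real.exp r - 1 = 0
    · simp [a, hκ, hc0]
    have hC := Cpair_pos
    have hκ2 : 0 < (Real.exp r - 1) ^ 2 := by positivity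
    have ha : 0 < a := by positivity
    refine le_csSup hbdd (Or.inr ⟨ha, ?_⟩)
    refine squeeze_zero' (hnn a) (g := fun N : ℕ => (Real.log 2) / N + 4 * B * √((K4 + 4) * a) / √(N:ℝ)) ?_ ?_
    · filter_upwards [hμ, hov] with N ⟨hN, hc⟩ ho
      have hN' : (0:ℝ) < N := by exact_mod_cast hN
      have hfl : (⌊a * N⌋₊ : ℝ) ≤ a * N := Nat.floor_le (by positivity)
      have hsm : 8 * Cpair * (Real.exp r - 1) ^ 2 * (⌊a * N⌋₊ : ℝ) ≤ N := by
        refine (mul_le_mul_of_nonneg_left hfl (by positivity)).trans (le_of_eq ?_)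
        simp only [a]; field_simp
      have hg := gap_le_second_moment hN hc ho (by linarith [one_le_K4]) hf hB h1 hr hsm
      have hs : √((K4 + 4) * (⌊a * N⌋₊ : ℝ)) ≤ √((K4 + 4) * a) * √(N:ℝ) := by
        rw [← Real.sqrt_mul (mul_nonneg (by linarith [one_le_K4]) ha.le)]
        refine Real.sqrt_le_sqrt ?_
        rw [mul_assoc]; exact mul_le_mul_of_nonneg_left hfl (by linarith [one_le_K4])
      calc gap (μ N) f ⌊a * N⌋₊ / N ≤ (Real.log 2 + 4 * B * (√((K4 + 4) * a) * √(N:ℝ))) / N :=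
            div_le_div_of_nonneg_right (hg.trans (add_le_add le_rfl (mul_le_mul_of_nonneg_left hs (by positivity)))) hN'.le
        _ = _ := by
            have hs : √(N:ℝ) ≠ 0 := by positivity
            field_simp
            linear_combination (4 * B * √((K4 + 4) * a)) * Real.mul_self_sqrt hN'.le
    · simpa using (tendsto_const_div_atTop_nhds_zero_nat (Real.log 2)).add
        ((Real.tendsto_sqrt_atTop.comp tendsto_natCast_atTop_atTop).const_div_atTop (4 * B * √((K4 + 4) * a)))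
  refine ⟨αc, hc0, fun α hα => (tendsto_pressure_iff μ f hα.le).trans (hiff α hα), ?_, hlower⟩
  constructor
  · intro hpos
    by_contra h1
    obtain ⟨δ, hδ, hev⟩ := tilt_strict hμ hf hB h1 hpos
    have := le_of_tendsto ((tendsto_pressure_iff μ f hpos.le).2 ((hiff αc hpos).2 le_rfl)) hev
    linarith
  · intro h1
    have hBpos : 0 < B := by
      rcases eq_or_lt_of_le hB0 with hb | hb
      · exact absurd ⟨0, Filter.Eventually.of_forall fun s => abs_nonpos_iff.1 ((hB s).trans hb.ge)⟩ hnc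
      · exact hb
    refine lt_of_lt_of_le ?_ (hlower h1 (2 * B) fun s t => by
      linarith [(abs_le.1 (hB s)).2, (abs_le.1 (hB t)).1])
    have : 0 < Real.exp (2 * B) - 1 := by linarith [Real.add_one_le_exp (2 * B)]
    have := Cpair_pos
    positivity

end Vale.Agent.P157
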