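import Vale.Agent.P157.SecondMoment

open MeasureTheory ProbabilityTheory Real
open scoped RealInnerProductSpace ENNReal

namespace Vale.Agent.P157

variable {N : ℕ}

lemma isProb_rademacher :
    IsProbabilityMeasure ((2 : ℝ≥0∞)⁻¹ • (Measure.dirac (-1 : ℝ) + Measure.dirac 1)) :=
  ⟨by
    rw [Measure.smul_apply, Measure.add_apply, measure_univ, measure_univ, smul_eq_mul,
      one_add_one_eq_two, ENNReal.inv_mul_cancel two_ne_zero ENNReal.ofNat_ne_top]⟩

lemma integral_rademacher (F : ℝ → ℝ) :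
    ∫ y, F y ∂((2 : ℝ≥0∞)⁻¹ • (Measure.dirac (-1 : ℝ) + Measure.dirac 1)) = (F (-1) + F 1) / 2 := by
  rw [integral_smul_measure, integral_add_measure (integrable_dirac (by simp))
    (integrable_dirac (by simp)), integral_dirac, integral_dirac]
  simp [ENNReal.toReal_inv]
  ring

lemma carried_ising (N : ℕ) : Carried (isingUniform N) := by
  have := isProb_rademacher
  refine ⟨Measure.isProbabilityMeasure_map (by fun_prop), ?_⟩
  unfold isingUniform
  refine (ae_map_iff (by fun_prop) (measurableSet_eq_fun (by fun_prop) measurable_const)).2 ?_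
  have h : ∀ i : Fin N, ∀ᵐ y ∂(Measure.pi fun _ : Fin N =>
      (2 : ℝ≥0∞)⁻¹ • (Measure.dirac (-1 : ℝ) + Measure.dirac 1)), y i ^ 2 = 1 := by
    intro i
    have hb : ∀ᵐ t ∂((2 : ℝ≥0∞)⁻¹ • (Measure.dirac (-1 : ℝ) + Measure.dirac 1)), t ^ 2 = 1 := by
      apply Measure.ae_smul_measure
      rw [ae_add_measure_iff]
      constructor <;> simp [ae_dirac_eq]
    exact (measurePreserving_eval (fun _ : Fin N =>
      (2 : ℝ≥0∞)⁻¹ • (Measure.dirac (-1 : ℝ) + Measure.dirac 1)) i).quasiMeasurePreserving.ae hb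
  filter_upwards [ae_all_iff.2 h] with y hy
  rw [EuclideanSpace.norm_eq]
  simp [hy]

lemma integral_exp_lin (t : ℝ) : ∫ z, Real.exp (t * z) ∂γ = Real.exp (t ^ 2 / 2) := by
  have := congrFun (mgf_id_gaussianReal (μ := 0) (v := 1)) t
  simpa [mgf, id] using this

lemma exp_abs_le (c z : ℝ) : Real.exp (c * |z|) ≤ Real.exp (c * z) + Real.exp (-c * z) := by
  rcases abs_choice z with h | h <;> rw [h]
  · linarith [Real.exp_pos (-c * z)]
  · rw [mul_neg, ← neg_mul]; linarith [Real.exp_pos (c * z)]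

lemma integrable_exp_abs (c : ℝ) : Integrable (fun z => Real.exp (c * |z|)) γ :=
  ((integrable_exp_mul_gaussianReal c).add (integrable_exp_mul_gaussianReal (-c))).mono'
    (by fun_prop) (Filter.Eventually.of_forall fun z => by
      rw [Real.norm_eq_abs, abs_exp]; exact exp_abs_le c z)

/-- It suffices to bound the overlap for every fixed configuration. -/
lemma overlap_of_slices {μ : Measure (Vec N)} (hμ : Carried μ) {K : ℝ}
    (h : ∀ x : Vec N, ‖x‖ = √(N:ℝ) → ∫ y, Real.exp ((1/8) * (⟪x, y⟫ ^ 2 / N)) ∂μ ≤ K) :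
    OverlapBound μ K := by
  have := hμ.prob
  have hm : Measurable fun p : Vec N × Vec N => Real.exp ((1/8) * (⟪p.1, p.2⟫ ^ 2 / N)) := by fun_prop
  have hi : Integrable (fun p : Vec N × Vec N => Real.exp ((1/8) * (⟪p.1, p.2⟫ ^ 2 / N))) (μ.prod μ) := by
    refine Integrable.of_bound hm.aestronglyMeasurable (Real.exp ((1/8) * ((N:ℝ) ^ 2 / N))) ?_
    filter_upwards [norm_eq_prod hμ] with p hp
    rw [Real.norm_eq_abs, abs_exp]
    refine exp_le_exp.2 (mul_le_mul_of_nonneg_left ?_ (by norm_num))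
    refine div_le_div_of_nonneg_right ?_ (Nat.cast_nonneg _)
    have h := abs_real_inner_le_norm p.1 p.2
    rw [hp.1, hp.2, Real.mul_self_sqrt (Nat.cast_nonneg _)] at h
    rw [← sq_abs]; exact pow_le_pow_left₀ (abs_nonneg _) h 2
  unfold OverlapBound
  rw [integral_prod _ hi]
  calc _ ≤ ∫ _x, K ∂μ := integral_mono_ae hi.integral_prod_left (integrable_const _)
        (hμ.norm_eq.mono fun x hx => h x hx)
    _ = K := by simp

lemma overlap_ising (hN : 0 < N) : OverlapBound (isingUniform N) K4 := by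
  have := isProb_rademacher
  have hc := carried_ising N
  have := hc.prob
  refine overlap_of_slices hc fun x hx => ?_
  have hN' : (0:ℝ) < N := by exact_mod_cast hN
  have hs : (0:ℝ) < √(N:ℝ) := Real.sqrt_pos.2 hN'
  have key : ∀ y : Vec N, Real.exp ((1/8) * (⟪x, y⟫ ^ 2 / N)) =
      ∫ z, Real.exp (z * (⟪x, y⟫ / (2 * √(N:ℝ)))) ∂γ := by
    intro y
    simp_rw [mul_comm _ (⟪x, y⟫ / (2 * √(N:ℝ))), integral_exp_lin]
    congr 1
    rw [div_pow, mul_pow, Real.sq_sqrt hN'.le]; ring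
  simp_rw [key]
  have hI : Integrable (fun p : Vec N × ℝ => Real.exp (p.2 * (⟪x, p.1⟫ / (2 * √(N:ℝ)))))
      ((isingUniform N).prod γ) := by
    refine (Integrable.comp_snd (integrable_exp_abs (√(N:ℝ) / 2)) (isingUniform N)).mono' (by fun_prop) ?_
    have h1 : ∀ᵐ p ∂((isingUniform N).prod γ), ‖p.1‖ = √(N:ℝ) :=
      Measure.quasiMeasurePreserving_fst.ae hc.norm_eq
    filter_upwards [h1] with p hp
    rw [Real.norm_eq_abs, abs_exp]
    refine exp_le_exp.2 ?_
    have h := abs_real_inner_le_norm x p.1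
    rw [hx, hp] at h
    have h' : |⟪x, p.1⟫ / (2 * √(N:ℝ))| ≤ √(N:ℝ) / 2 := by
      rw [abs_div, abs_of_pos (show (0:ℝ) < 2 * √(N:ℝ) by positivity), div_le_div_iff₀ (by positivity) two_pos]
      linarith
    calc p.2 * (⟪x, p.1⟫ / (2 * √(N:ℝ))) ≤ |p.2| * |⟪x, p.1⟫ / (2 * √(N:ℝ))| := by
          rw [← abs_mul]; exact le_abs_self _
      _ ≤ |p.2| * (√(N:ℝ) / 2) := mul_le_mul_of_nonneg_left h' (abs_nonneg _)
      _ = _ := mul_comm _ _
  rw [integral_integral_swap hI]
  refine integral_mono hI.integral_prod_right integrable_K4 fun z => ?_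
  show ∫ y, Real.exp (z * (⟪x, y⟫ / (2 * √(N:ℝ)))) ∂isingUniform N ≤ _
  rw [isingUniform, integral_map (by fun_prop) (by fun_prop)]
  have e : ∀ y : Fin N → ℝ, Real.exp (z * (⟪x, WithLp.toLp 2 y⟫ / (2 * √(N:ℝ)))) =
      ∏ i, Real.exp (z / (2 * √(N:ℝ)) * x i * y i) := by
    intro y; rw [← Real.exp_sum]; congr 1
    simp only [PiLp.inner_apply, RCLike.inner_apply, conj_trivial, Finset.sum_div, Finset.mul_sum]
    refine Finset.sum_congr rfl fun i _ => ?_
    ring
  simp_rw [e]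
  rw [integral_fintype_prod_eq_prod (fun i (t : ℝ) => Real.exp (z / (2 * √(N:ℝ)) * x i * t))]
  simp only [integral_rademacher]
  calc ∏ i, (Real.exp (z / (2 * √(N:ℝ)) * x i * -1) + Real.exp (z / (2 * √(N:ℝ)) * x i * 1)) / 2
      = ∏ i, Real.cosh (z / (2 * √(N:ℝ)) * x i) := by
        refine Finset.prod_congr rfl fun i _ => ?_
        rw [Real.cosh_eq]; ring_nf
    _ ≤ ∏ i, Real.exp ((z / (2 * √(N:ℝ)) * x i) ^ 2 / 2) :=
        Finset.prod_le_prod (fun i _ => (Real.cosh_pos _).le) fun i _ => Real.cosh_le_exp_half_sq _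
    _ ≤ _ := by
        rw [← Real.exp_sum]; refine exp_le_exp.2 ?_
        rw [← Finset.sum_div]
        simp only [mul_pow]
        rw [← Finset.mul_sum]
        have : ∑ i, x i ^ 2 = (N:ℝ) := by
          have h := EuclideanSpace.real_norm_sq_eq x
          rw [hx, Real.sq_sqrt hN'.le] at h
          exact h.symm
        rw [this, div_pow, mul_pow, Real.sq_sqrt hN'.le]
        field_simp
        nlinarith [sq_nonneg z]

/-- radial part of the polar decomposition -/
lemma polar_identity [NeZero N] {F : Metric.sphere (0 : Vec N) 1 → ℝ} {R : ℝ → ℝ}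
    {G : Vec N → ℝ} (hG : ∀ (x : Vec N) (hx : x ∈ ({0}ᶜ : Set (Vec N))),
      G x = F ((homeomorphUnitSphereProd (Vec N) ⟨x, hx⟩).1) * R ‖x‖) :
    (volume : Measure (Vec N)).toSphere.real Set.univ * ∫ x, G x ∂volume =
      (∫ u, F u ∂(volume : Measure (Vec N)).toSphere) * ∫ x : Vec N, R ‖x‖ ∂volume := by
  have key : ∀ (G : Vec N → ℝ) (F : Metric.sphere (0 : Vec N) 1 → ℝ),
      (∀ (x : Vec N) (hx : x ∈ ({0}ᶜ : Set (Vec N))),
        G x = F ((homeomorphUnitSphereProd (Vec N) ⟨x, hx⟩).1) * R ‖x‖) →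
      ∫ x, G x ∂volume = (∫ u, F u ∂(volume : Measure (Vec N)).toSphere) *
        ∫ r : Set.Ioi (0:ℝ), R r ∂Measure.volumeIoiPow (Module.finrank ℝ (Vec N) - 1) := by
    intro G F hG
    rw [← integral_prod_mul,
      ← (Measure.measurePreserving_homeomorphUnitSphereProd (volume : Measure (Vec N))).integral_comp
        (Homeomorph.measurableEmbedding _) (fun p => F p.1 * R p.2)]
    conv_lhs => rw [← restrict_compl_singleton (μ := (volume : Measure (Vec N))) 0,
      ← integral_subtype_comap (measurableSet_singleton _).compl]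
    congr 1; funext x
    rw [hG x.1 x.2]
    simp
  rw [key G F hG, key (fun x => R ‖x‖) (fun _ => 1) (fun x hx => by simp)]
  simp; ring

lemma prob_sphereUniform (hN : 0 < N) : IsProbabilityMeasure
    (((volume : Measure (Vec N)).toSphere Set.univ)⁻¹ • (volume : Measure (Vec N)).toSphere) := by
  have : Nontrivial (Vec N) := Module.nontrivial_of_finrank_pos (R := ℝ) (by simpa using hN)
  exact ⟨by
    rw [Measure.smul_apply, smul_eq_mul, ENNReal.inv_mul_cancel]
    · exact fun h => Measure.toSphere_ne_zero _ (Measure.measure_univ_eq_zero.1 h)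
    · exact measure_ne_top _ _⟩

lemma carried_sphere (hN : 0 < N) : Carried (sphereUniform N) := by
  have := prob_sphereUniform hN
  refine ⟨Measure.isProbabilityMeasure_map (by fun_prop), ?_⟩
  unfold sphereUniform
  refine (ae_map_iff (by fun_prop) (measurableSet_eq_fun (by fun_prop) measurable_const)).2
    (Filter.Eventually.of_forall fun u => ?_)
  rw [norm_smul, norm_eq_of_mem_sphere u, mul_one, Real.norm_of_nonneg (Real.sqrt_nonneg _)]

lemma integral_exp_quad (N : ℕ) (i₀ : Fin N) (c d : ℝ) :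
    ∫ x : Vec N, Real.exp (c * x i₀ ^ 2 + d * ‖x‖ ^ 2) ∂volume =
      (∫ t : ℝ, Real.exp ((c + d) * t ^ 2)) * (∫ t : ℝ, Real.exp (d * t ^ 2)) ^ (N - 1) := by
  rw [← (PiLp.volume_preserving_toLp (Fin N)).integral_comp (MeasurableEquiv.toLp 2 _).measurableEmbedding]
  have e : ∀ y : Fin N → ℝ, Real.exp (c * (WithLp.toLp 2 y : Vec N) i₀ ^ 2 + d * ‖(WithLp.toLp 2 y : Vec N)‖ ^ 2) =
      ∏ i, Real.exp ((if i = i₀ then c + d else d) * y i ^ 2) := by
    intro y
    rw [← Real.exp_sum, EuclideanSpace.real_norm_sq_eq, Finset.mul_sum]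
    congr 1
    have : ∀ i, (if i = i₀ then c + d else d) * y i ^ 2 = (if i = i₀ then c * y i ^ 2 else 0) + d * y i ^ 2 := by
      intro i; split <;> ring
    simp only [this, Finset.sum_add_distrib, Finset.sum_ite_eq', Finset.mem_univ, if_true]
  simp_rw [e]
  rw [volume_pi, integral_fintype_prod_eq_prod (fun i (t : ℝ) => Real.exp ((if i = i₀ then c + d else d) * t ^ 2)),
    ← Finset.mul_prod_erase _ _ (Finset.mem_univ i₀)]
  simp only [if_true]
  congr 1
  rw [Finset.prod_congr rfl (g := fun _ => ∫ t : ℝ, Real.exp (d * t ^ 2)) fun i hi => by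
    simp [Finset.ne_of_mem_erase hi]]
  simp

lemma integral_exp_sq_coef {b : ℝ} (c : ℝ) (hc : c = -b) :
    ∫ t : ℝ, Real.exp (c * t ^ 2) = √(π / b) := by
  subst hc; exact integral_gaussian b

lemma integrable_exp_dir (v : Vec N) (hv1 : ‖v‖ = 1) {c d : ℝ} (hd : d < 0) (hcd : c + d < 0) :
    Integrable (fun x : Vec N => Real.exp (c * ⟪x, v⟫ ^ 2 + d * ‖x‖ ^ 2)) := by
  refine ((GaussianFourier.integrable_cexp_neg_mul_sq_norm_add
    (b := ((-(max d (c + d)) : ℝ) : ℂ)) (by simp only [Complex.ofReal_re]; exact neg_pos.2 (max_lt hd hcd))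
    0 (0 : Vec N)).norm).mono' (by fun_prop) (Filter.Eventually.of_forall fun y => ?_)
  rw [Real.norm_eq_abs, abs_exp, Complex.norm_exp]
  refine exp_le_exp.2 ?_
  simp only [inner_zero_left, Complex.ofReal_zero, mul_zero, add_zero]
  have h : ⟪y, v⟫ ^ 2 ≤ ‖y‖ ^ 2 := by
    have := abs_real_inner_le_norm y v
    rw [hv1, mul_one] at this
    rw [← sq_abs]; exact pow_le_pow_left₀ (abs_nonneg _) this 2
  rw [show (-((-(max d (c + d)) : ℝ) : ℂ) * (‖y‖:ℂ) ^ 2).re = max d (c + d) * ‖y‖ ^ 2 by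
    norm_cast; ring]
  rcases le_total 0 c with hc0 | hc0
  · nlinarith [mul_le_mul_of_nonneg_left h hc0, mul_le_mul_of_nonneg_right (le_max_right d (c+d)) (sq_nonneg ‖y‖)]
  · nlinarith [mul_nonpos_of_nonpos_of_nonneg hc0 (sq_nonneg (⟪y, v⟫)),
      mul_le_mul_of_nonneg_right (le_max_left d (c+d)) (sq_nonneg ‖y‖)]

lemma integral_exp_dir (v : Vec N) (hv1 : ‖v‖ = 1) (c d : ℝ) :
    ∫ y : Vec N, Real.exp (c * ⟪y, v⟫ ^ 2 + d * ‖y‖ ^ 2) ∂volume =
      (∫ t : ℝ, Real.exp ((c + d) * t ^ 2)) * (∫ t : ℝ, Real.exp (d * t ^ 2)) ^ (N - 1) := by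
  have hN : 0 < N := by
    rcases Nat.eq_zero_or_pos N with rfl | h
    · simp [Subsingleton.elim v 0] at hv1
    · exact h
  obtain ⟨b, hb⟩ := Orthonormal.exists_orthonormalBasis_extension_of_card_eq (𝕜 := ℝ) (ι := Fin N)
    (v := fun _ : Fin N => v) (s := {⟨0, hN⟩}) (by simp) (by
      constructor
      · intro i; simpa [Set.domRestrict] using hv1
      · intro i j hij; exact absurd (Subsingleton.elim i j) hij)
  set i₀ : Fin N := ⟨0, hN⟩
  have hbi : b i₀ = v := hb _ (Set.mem_singleton _)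
  rw [← integral_exp_quad N i₀ c d,
    ← b.measurePreserving_repr.integral_comp b.repr.toHomeomorph.measurableEmbedding
      (fun x : Vec N => Real.exp (c * x i₀ ^ 2 + d * ‖x‖ ^ 2))]
  congr 1; funext y
  rw [LinearIsometryEquiv.norm_map, b.repr_apply_apply, hbi, real_inner_comm]

lemma overlap_sphere :
    ∀ᶠ N in Filter.atTop, OverlapBound (sphereUniform N) 4 := by
  set ρ := Real.exp (1/2) * √(1/3) with hρ
  have hρ1 : ρ < 1 := by
    have h3 : Real.exp 1 < 3 := lt_trans Real.exp_one_lt_d9 (by norm_num)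
    have e : ρ ^ 2 = Real.exp 1 / 3 := by
      rw [hρ, mul_pow, ← Real.exp_nat_mul, Real.sq_sqrt (by norm_num)]; norm_num; ring
    nlinarith [show 0 ≤ ρ by positivity]
  filter_upwards [Filter.eventually_ge_atTop 1,
    (tendsto_pow_atTop_nhds_zero_of_lt_one (show 0 ≤ ρ by positivity) hρ1).eventually
      (gt_mem_nhds (show (0:ℝ) < 1/2 by norm_num))] with N hN hρN
  have : NeZero N := ⟨by omega⟩
  have hN' : (0:ℝ) < N := by exact_mod_cast hN
  have hc := carried_sphere (N := N) (by omega)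
  have := hc.prob
  refine overlap_of_slices hc fun x hx => ?_
  have := prob_sphereUniform (N := N) (by omega)
  unfold sphereUniform
  rw [integral_map (by fun_prop) (by fun_prop)]
  set v := (√(N:ℝ))⁻¹ • x with hv
  have hv1 : ‖v‖ = 1 := unit_of_norm (by omega) hx
  have e : ∀ u : Metric.sphere (0 : Vec N) 1, Real.exp ((1/8) * (⟪x, √(N:ℝ) • (u : Vec N)⟫ ^ 2 / N)) =
      Real.exp ((N / 8) * ⟪(u : Vec N), v⟫ ^ 2) := by
    intro u
    have hs : √(N:ℝ) ≠ 0 := by positivity
    rw [hv, inner_smul_right, inner_smul_right, real_inner_comm x]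
    congr 1
    rw [mul_pow, mul_pow, inv_pow, Real.sq_sqrt hN'.le]
    field_simp
  simp_rw [e]
  set F : Metric.sphere (0 : Vec N) 1 → ℝ := fun u => Real.exp ((N / 8) * ⟪(u : Vec N), v⟫ ^ 2) with hF
  set R : ℝ → ℝ := fun r => if (N:ℝ) / 2 ≤ r ^ 2 then Real.exp (-r ^ 2 / 2) else 0 with hR
  set G : Vec N → ℝ := fun x => Real.exp ((N / 8) * ⟪‖x‖⁻¹ • x, v⟫ ^ 2) * R ‖x‖ with hG
  have hpol := polar_identity (N := N) (F := F) (R := R) (G := G) fun x hx => by
    simp [hG, hF]
  have hRm : Measurable R := by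
    simp only [hR]
    exact Measurable.ite (measurableSet_le measurable_const (by fun_prop)) (by fun_prop) measurable_const
  have hR0 : ∀ r, 0 ≤ R r := fun r => by simp only [hR]; split <;> positivity
  have hI : ∀ c d : ℝ, d < 0 → c + d < 0 →
      Integrable (fun x : Vec N => Real.exp (c * ⟪x, v⟫ ^ 2 + d * ‖x‖ ^ 2)) :=
    fun c d hd hcd => integrable_exp_dir v hv1 hd hcd
  have hJ := integral_exp_dir v hv1
  have hpow : ∀ a : ℝ, a * a ^ (N - 1) = a ^ N := fun a => by
    rw [← pow_succ', Nat.sub_add_cancel hN]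
  set s := √(2 * π) with hs
  have hs0 : 0 < s := by positivity
  have hGle : ∫ y, G y ∂volume ≤ √2 * s ^ N := by
    have h := hJ (1/4) (-1/2)
    rw [integral_exp_sq_coef (b := 1/4) _ (by norm_num), integral_exp_sq_coef (b := 1/2) _ (by norm_num)] at h
    refine (integral_mono_of_nonneg (Filter.Eventually.of_forall fun y => mul_nonneg (exp_pos _).le (hR0 _))
      (hI (1/4) (-1/2) (by norm_num) (by norm_num)) (Filter.Eventually.of_forall fun y => ?_)).trans_eq ?_
    · simp only [hG, hR]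
      split
      next hy =>
        rw [← Real.exp_add]; refine exp_le_exp.2 ?_
        have hy0 : ‖y‖ ≠ 0 := fun h0 => by rw [h0] at hy; nlinarith
        rw [real_inner_smul_left, mul_pow, inv_pow]
        have : (N:ℝ) / 8 * ((‖y‖ ^ 2)⁻¹ * ⟪y, v⟫ ^ 2) ≤ ⟪y, v⟫ ^ 2 / 4 := by
          calc (N:ℝ) / 8 * ((‖y‖ ^ 2)⁻¹ * ⟪y, v⟫ ^ 2) ≤ (‖y‖ ^ 2 / 4) * ((‖y‖ ^ 2)⁻¹ * ⟪y, v⟫ ^ 2) :=
                mul_le_mul_of_nonneg_right (by linarith) (by positivity)
            _ = _ := by field_simp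
        linarith
      next hy => simp; positivity
    · rw [h, ← hpow s, hs]
      have e1 : √(π / (1/2)) = √(2 * π) := by congr 1; ring
      have e2 : √(π / (1/4)) = √2 * √(2 * π) := by
        rw [← Real.sqrt_mul (by norm_num)]; congr 1; ring
      rw [e1, e2]; ring
  have hRge : s ^ N / 2 ≤ ∫ y : Vec N, R ‖y‖ ∂volume := by
    have iR : Integrable (fun y : Vec N => R ‖y‖) :=
      (hI 0 (-1/2) (by norm_num) (by norm_num)).mono' (hRm.comp (by fun_prop)).aestronglyMeasurable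
        (Filter.Eventually.of_forall fun y => by
          rw [Real.norm_eq_abs, abs_of_nonneg (hR0 _)]
          simp only [hR]
          split
          · exact le_of_eq (by ring_nf)
          · positivity)
    have i1 := hI 0 (-1/2) (by norm_num) (by norm_num)
    have i2 := (hI 0 (-3/2) (by norm_num) (by norm_num)).const_mul (Real.exp (N/2))
    have hle : ∀ y : Vec N, Real.exp (0 * ⟪y, v⟫ ^ 2 + (-1/2) * ‖y‖ ^ 2) -
        Real.exp (N/2) * Real.exp (0 * ⟪y, v⟫ ^ 2 + (-3/2) * ‖y‖ ^ 2) ≤ R ‖y‖ := by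
      intro y
      simp only [hR]
      split
      next hy =>
        have e3 : Real.exp (0 * ⟪y, v⟫ ^ 2 + (-1/2) * ‖y‖ ^ 2) = Real.exp (-‖y‖ ^ 2 / 2) := by ring_nf
        rw [e3]
        linarith [mul_pos (exp_pos ((N:ℝ)/2)) (exp_pos (0 * ⟪y, v⟫ ^ 2 + (-3/2) * ‖y‖ ^ 2))]
      next hy =>
        rw [← Real.exp_add, sub_nonpos]
        exact exp_le_exp.2 (by linarith)
    refine le_trans (le_of_eq_of_le rfl ?_) (integral_mono (i1.sub i2) iR hle)
    simp only [Pi.sub_apply]
    rw [integral_sub i1 i2, integral_const_mul, hJ, hJ]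
    simp only [zero_add]
    rw [hpow, hpow, integral_exp_sq_coef (b := 1/2) _ (by norm_num),
      integral_exp_sq_coef (b := 3/2) _ (by norm_num)]
    have e1 : √(π / (1/2)) = s := by rw [hs]; congr 1; ring
    have e2 : √(π / (3/2)) = s * √(1/3) := by
      rw [hs, ← Real.sqrt_mul (by positivity)]; congr 1; ring
    rw [e1, e2, show Real.exp ((N:ℝ)/2) = Real.exp (1/2) ^ N by
      rw [← Real.exp_nat_mul]; congr 1; ring]
    have : Real.exp (1/2) ^ N * (s * √(1/3)) ^ N = ρ ^ N * s ^ N := by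
      rw [hρ, ← mul_pow, ← mul_pow]; ring_nf
    rw [this]
    nlinarith [mul_le_mul_of_nonneg_right hρN.le (pow_pos hs0 N).le]
  rw [integral_smul_measure, smul_eq_mul, ENNReal.toReal_inv, ← measureReal_def]
  set T := (volume : Measure (Vec N)).toSphere.real Set.univ with hT
  have hT0 : 0 < T := by
    have : Nontrivial (Vec N) := Module.nontrivial_of_finrank_pos (R := ℝ) (by simpa using Nat.pos_of_ne_zero (by omega))
    rw [hT, measureReal_def]
    exact ENNReal.toReal_pos (fun h => Measure.toSphere_ne_zero _ (Measure.measure_univ_eq_zero.1 h))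
      (measure_ne_top _ _)
  rw [inv_mul_le_iff₀ hT0]
  have hA0 : 0 ≤ ∫ u, F u ∂(volume : Measure (Vec N)).toSphere := integral_nonneg fun u => (exp_pos _).le
  have h2 : √2 ≤ 2 := by rw [Real.sqrt_le_left] <;> norm_num
  by_contra hcon
  push Not at hcon
  nlinarith [mul_le_mul_of_nonneg_left hRge hA0, mul_le_mul_of_nonneg_left hGle hT0.le,
    mul_lt_mul_of_pos_right hcon (pow_pos hs0 N),
    mul_le_mul_of_nonneg_left h2 (mul_nonneg hT0.le (pow_pos hs0 N).le), hpol]

end Vale.Agent.P157
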