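import Vale.Agent.P157.Defs

open MeasureTheory ProbabilityTheory Real
open scoped RealInnerProductSpace ENNReal

namespace Vale.Agent.P157

/-- standard Gaussian law on the line -/
noncomputable abbrev γ : Measure ℝ := gaussianReal 0 1

variable {N M : ℕ}

instance (N M : ℕ) : IsProbabilityMeasure (patterns N M) := by
  unfold patterns; infer_instance

lemma integrable_bdd {α : Type*} {mα : MeasurableSpace α} {ν : Measure α} [IsFiniteMeasure ν]
    {F : α → ℝ} (hm : Measurable F) {C : ℝ} (hb : ∀ x, |F x| ≤ C) : Integrable F ν :=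
  Integrable.of_bound hm.aestronglyMeasurable C (Filter.Eventually.of_forall fun x => by
    simpa [Real.norm_eq_abs] using hb x)

lemma abs_integral_le_of_abs_le {α : Type*} {mα : MeasurableSpace α} {ν : Measure α}
    [IsProbabilityMeasure ν] {F : α → ℝ} {C : ℝ} (hb : ∀ x, |F x| ≤ C) : |∫ x, F x ∂ν| ≤ C := by
  have := norm_integral_le_of_norm_le_const (μ := ν) (f := F) (C := C)
    (Filter.Eventually.of_forall fun x => by simpa [Real.norm_eq_abs] using hb x)
  simpa [Real.norm_eq_abs] using this

/-- Jensen for the logarithm. -/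
lemma integral_log_le {α : Type*} {mα : MeasurableSpace α} {ν : Measure α} [IsProbabilityMeasure ν]
    {X : α → ℝ} (hpos : ∀ x, 0 < X x) (hX : Integrable X ν)
    (hlog : Integrable (fun x => Real.log (X x)) ν) :
    ∫ x, Real.log (X x) ∂ν ≤ Real.log (∫ x, X x ∂ν) := by
  set c := ∫ x, X x ∂ν with hc
  have hcpos : 0 < c := by
    rw [hc, integral_pos_iff_support_of_nonneg (fun x => (hpos x).le) hX]
    have : Function.support X = Set.univ := by
      ext x; simp [(hpos x).ne']
    simp [this]
  have key : ∀ x, Real.log (X x) ≤ Real.log c + (X x / c - 1) := fun x => by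
    have := Real.log_le_sub_one_of_pos (div_pos (hpos x) hcpos)
    rw [Real.log_div (hpos x).ne' hcpos.ne'] at this
    linarith
  have hi : Integrable (fun x => X x / c - 1) ν := (hX.div_const c).sub (integrable_const 1)
  calc ∫ x, Real.log (X x) ∂ν ≤ ∫ x, (Real.log c + (X x / c - 1)) ∂ν :=
        integral_mono hlog ((integrable_const _).add hi) key
    _ = Real.log c := by
        rw [integral_add (integrable_const _) hi, integral_sub (hX.div_const c) (integrable_const 1),
          integral_div, ← hc, div_self hcpos.ne']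
        simp

/-- the linear statistic of a standard Gaussian vector in a unit direction is standard Gaussian -/
lemma map_inner_stdGaussian (v : Vec N) (hv : ‖v‖ = 1) :
    (stdGaussian (Vec N)).map (fun h => ⟪h, v⟫) = γ := by
  have h0 : (fun h : Vec N => ⟪h, v⟫) = ⇑(innerSL ℝ v) := by
    funext h; simp [real_inner_comm]
  rw [h0, IsGaussian.map_eq_gaussianReal, integral_strongDual_stdGaussian,
    variance_dual_stdGaussian, innerSL_apply_norm, hv]
  simp

lemma unit_of_norm {x : Vec N} (hN : 0 < N) (hx : ‖x‖ = √(N:ℝ)) : ‖(√(N:ℝ))⁻¹ • x‖ = 1 := by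
  have h : (0:ℝ) < √(N:ℝ) := by positivity
  rw [norm_smul, hx, norm_inv, Real.norm_of_nonneg h.le, inv_mul_cancel₀ h.ne']

lemma arg_eq (h x : Vec N) : ⟪h, x⟫ / √(N:ℝ) = ⟪h, (√(N:ℝ))⁻¹ • x⟫ := by
  rw [inner_smul_right, div_eq_inv_mul]

lemma integral_stdGaussian_arg {F : ℝ → ℝ} (hF : AEStronglyMeasurable F γ) (v : Vec N)
    (hv : ‖v‖ = 1) : ∫ h, F ⟪h, v⟫ ∂stdGaussian (Vec N) = ∫ s, F s ∂γ := by
  rw [← map_inner_stdGaussian v hv, integral_map (by fun_prop)]
  rw [map_inner_stdGaussian v hv]; exact hF

lemma integral_patterns_succ {F : (Fin (M + 1) → Vec N) → ℝ} (hF : Integrable F (patterns N (M+1))) :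
    ∫ g, F g ∂patterns N (M + 1) =
      ∫ g', ∫ h, F (Fin.cons h g') ∂stdGaussian (Vec N) ∂patterns N M := by
  have hp := (measurePreserving_piFinSuccAbove (fun _ : Fin (M+1) => stdGaussian (Vec N)) 0).symm
  have hF' : Integrable (fun p => F ((MeasurableEquiv.piFinSuccAbove (fun _ => Vec N) 0).symm p))
      ((stdGaussian (Vec N)).prod (patterns N M)) :=
    (hp.integrable_comp_emb (MeasurableEquiv.measurableEmbedding _)).2 hF
  have h1 := hp.integral_comp' (g := F)
  unfold patterns at hF' ⊢
  rw [← h1, integral_prod_symm _ hF']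
  simp [MeasurableEquiv.piFinSuccAbove, Fin.insertNthEquiv, Fin.insertNth_zero']

/-- Hypotheses on a configuration space: a probability measure on the sphere of radius `√N`. -/
structure Carried (μ : Measure (Vec N)) : Prop where
  prob : IsProbabilityMeasure μ
  norm_eq : ∀ᵐ x ∂μ, ‖x‖ = √(N:ℝ)

variable {μ : Measure (Vec N)} {f : ℝ → ℝ} {B : ℝ}

lemma abs_sum_f_le (hB : ∀ s, |f s| ≤ B) (g : Fin M → Vec N) (x : Vec N) :
    |∑ a, f (⟪g a, x⟫ / √(N:ℝ))| ≤ M * B :=
  (Finset.abs_sum_le_sum_abs _ _).trans
    ((Finset.sum_le_sum fun a _ => hB _).trans (by simp))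

lemma measurable_energy (hf : Measurable f) :
    Measurable fun p : (Fin M → Vec N) × Vec N =>
      Real.exp (∑ a, f (⟪p.1 a, p.2⟫ / √(N:ℝ))) := by
  apply Real.measurable_exp.comp
  exact Finset.measurable_sum _ fun a _ => hf.comp (by fun_prop)

lemma measurable_energy_left (hf : Measurable f) (g : Fin M → Vec N) :
    Measurable fun x : Vec N => Real.exp (∑ a, f (⟪g a, x⟫ / √(N:ℝ))) := by
  apply Real.measurable_exp.comp
  exact Finset.measurable_sum _ fun a _ => hf.comp (by fun_prop)

lemma measurable_cons : Measurable fun p : Vec N × (Fin M → Vec N) =>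
    (Fin.cons p.1 p.2 : Fin (M+1) → Vec N) := by
  refine measurable_pi_lambda _ (Fin.cases ?_ ?_)
  · simp only [Fin.cons_zero]; exact measurable_fst
  · intro i; simp only [Fin.cons_succ]; exact (measurable_pi_apply i).comp measurable_snd

lemma measurable_partition [SFinite μ] (hf : Measurable f) :
    Measurable (partition (M := M) μ f) :=
  ((measurable_energy hf).stronglyMeasurable.integral_prod_right').measurable

lemma integrable_energy [IsProbabilityMeasure μ] (hf : Measurable f) (hB : ∀ s, |f s| ≤ B)
    (g : Fin M → Vec N) :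
    Integrable (fun x => Real.exp (∑ a, f (⟪g a, x⟫ / √(N:ℝ)))) μ :=
  integrable_bdd (measurable_energy_left hf g) (C := Real.exp (M * B))
    fun x => by rw [abs_exp]; exact exp_le_exp.2 (abs_le.1 (abs_sum_f_le hB g x)).2

lemma partition_bounds [IsProbabilityMeasure μ] (hf : Measurable f) (hB : ∀ s, |f s| ≤ B)
    (g : Fin M → Vec N) :
    Real.exp (-(M * B)) ≤ partition μ f g ∧ partition μ f g ≤ Real.exp (M * B) := by
  constructor
  · calc Real.exp (-(M*B)) = ∫ _, Real.exp (-(M*B)) ∂μ := by simp
      _ ≤ _ := integral_mono (integrable_const _) (integrable_energy hf hB g)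
        fun x => exp_le_exp.2 (abs_le.1 (abs_sum_f_le hB g x)).1
  · calc partition μ f g ≤ ∫ _, Real.exp (M*B) ∂μ := integral_mono (integrable_energy hf hB g)
          (integrable_const _) fun x => exp_le_exp.2 (abs_le.1 (abs_sum_f_le hB g x)).2
      _ = _ := by simp

lemma partition_pos [IsProbabilityMeasure μ] (hf : Measurable f) (hB : ∀ s, |f s| ≤ B)
    (g : Fin M → Vec N) : 0 < partition μ f g :=
  lt_of_lt_of_le (exp_pos _) (partition_bounds hf hB g).1

lemma abs_log_partition [IsProbabilityMeasure μ] (hf : Measurable f) (hB : ∀ s, |f s| ≤ B)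
    (g : Fin M → Vec N) : |Real.log (partition μ f g)| ≤ M * B := by
  have h := partition_bounds (μ := μ) hf hB g
  have hp := partition_pos (μ := μ) hf hB g
  rw [abs_le]
  exact ⟨(Real.le_log_iff_exp_le hp).2 h.1, (Real.log_le_iff_le_exp hp).2 h.2⟩

lemma integrable_partition [IsProbabilityMeasure μ] (hf : Measurable f) (hB : ∀ s, |f s| ≤ B) :
    Integrable (partition (M := M) μ f) (patterns N M) :=
  integrable_bdd (measurable_partition hf) (C := Real.exp (M * B)) fun g => by
    rw [abs_of_pos (partition_pos hf hB g)]; exact (partition_bounds hf hB g).2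

lemma integrable_log_partition [IsProbabilityMeasure μ] (hf : Measurable f) (hB : ∀ s, |f s| ≤ B) :
    Integrable (fun g => Real.log (partition (M := M) μ f g)) (patterns N M) :=
  integrable_bdd (Real.measurable_log.comp (measurable_partition hf)) (abs_log_partition hf hB)

/-- `𝔼 log Z` -/
noncomputable def Phi (μ : Measure (Vec N)) (f : ℝ → ℝ) (M : ℕ) : ℝ :=
  ∫ g, Real.log (partition μ f g) ∂patterns N M

lemma pressure_eq (μ : Measure (Vec N)) (f : ℝ → ℝ) (M : ℕ) :
    pressure μ f M = Phi μ f M / N := by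
  rw [pressure, Phi]; ring

/-- the annealed free energy per pattern -/
noncomputable def ann (f : ℝ → ℝ) : ℝ := Real.log (∫ s, Real.exp (f s) ∂γ)

lemma integrable_exp_f (hf : Measurable f) (hB : ∀ s, |f s| ≤ B) :
    Integrable (fun s => Real.exp (f s)) γ :=
  integrable_bdd (Real.measurable_exp.comp hf) (C := Real.exp B) fun s => by
    rw [abs_exp]; exact exp_le_exp.2 (abs_le.1 (hB s)).2

lemma ann_aux (hf : Measurable f) (hB : ∀ s, |f s| ≤ B) :
    Real.exp (-B) ≤ ∫ s, Real.exp (f s) ∂γ ∧ ∫ s, Real.exp (f s) ∂γ ≤ Real.exp B := by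
  constructor
  · simpa using integral_mono (integrable_const (Real.exp (-B))) (integrable_exp_f hf hB)
      (fun s => exp_le_exp.2 (abs_le.1 (hB s)).1)
  · simpa using integral_mono (integrable_exp_f hf hB) (integrable_const (Real.exp B))
      (fun s => exp_le_exp.2 (abs_le.1 (hB s)).2)

lemma exp_ann (hf : Measurable f) (hB : ∀ s, |f s| ≤ B) :
    Real.exp (ann f) = ∫ s, Real.exp (f s) ∂γ :=
  Real.exp_log (lt_of_lt_of_le (exp_pos _) (ann_aux hf hB).1)

lemma abs_ann_le (hf : Measurable f) (hB : ∀ s, |f s| ≤ B) : |ann f| ≤ B := by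
  have h := ann_aux hf hB
  have hp := lt_of_lt_of_le (exp_pos _) h.1
  rw [abs_le]
  exact ⟨(Real.le_log_iff_exp_le hp).2 h.1, (Real.log_le_iff_le_exp hp).2 h.2⟩

lemma integral_exp_arg (hN : 0 < N) (hf : Measurable f) (hB : ∀ s, |f s| ≤ B) {x : Vec N}
    (hx : ‖x‖ = √(N:ℝ)) :
    ∫ h, Real.exp (f (⟪h, x⟫ / √(N:ℝ))) ∂stdGaussian (Vec N) = Real.exp (ann f) := by
  simp_rw [arg_eq]
  rw [exp_ann hf hB]
  exact integral_stdGaussian_arg (integrable_exp_f hf hB).1 _ (unit_of_norm hN hx)

/-- Adding a pattern: the annealed bound on the increment. -/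
lemma Phi_succ_le (hN : 0 < N) (hμ : Carried μ) (hf : Measurable f) (hB : ∀ s, |f s| ≤ B) :
    Phi μ f (M + 1) ≤ Phi μ f M + ann f := by
  have := hμ.prob
  have hint := integrable_log_partition (μ := μ) (M := M + 1) hf hB
  unfold Phi
  rw [integral_patterns_succ hint]
  have key : ∀ g' : Fin M → Vec N,
      ∫ h, Real.log (partition μ f (Fin.cons h g')) ∂stdGaussian (Vec N) ≤
        Real.log (partition μ f g') + ann f := by
    intro g'
    have hc : Measurable fun h : Vec N => (Fin.cons h g' : Fin (M+1) → Vec N) :=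
      (measurable_cons (N := N) (M := M)).comp (measurable_id.prodMk measurable_const)
    have hX : Integrable (fun h => partition μ f (Fin.cons h g')) (stdGaussian (Vec N)) :=
      integrable_bdd ((measurable_partition hf).comp hc) (C := Real.exp ((M+1 : ℕ) * B)) fun h => by
        rw [abs_of_pos (partition_pos hf hB _)]; exact (partition_bounds hf hB _).2
    have hlog : Integrable (fun h => Real.log (partition μ f (Fin.cons h g'))) (stdGaussian (Vec N)) :=
      integrable_bdd (Real.measurable_log.comp ((measurable_partition hf).comp hc))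
        fun h => abs_log_partition hf hB _
    refine (integral_log_le (fun h => partition_pos hf hB _) hX hlog).trans (le_of_eq ?_)
    have hpt : ∀ (h x : Vec N),
        Real.exp (∑ a, f (⟪(Fin.cons h g' : Fin (M+1) → Vec N) a, x⟫ / √(N:ℝ))) =
        Real.exp (f (⟪h, x⟫ / √(N:ℝ))) * Real.exp (∑ a, f (⟪g' a, x⟫ / √(N:ℝ))) := by
      intro h x; rw [Fin.sum_univ_succ]; simp [Real.exp_add]
    have hI : Integrable (fun p : Vec N × Vec N =>
        Real.exp (f (⟪p.1, p.2⟫ / √(N:ℝ))) * Real.exp (∑ a, f (⟪g' a, p.2⟫ / √(N:ℝ))))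
        ((stdGaussian (Vec N)).prod μ) := by
      have m1 : Measurable fun p : Vec N × Vec N => Real.exp (f (⟪p.1, p.2⟫ / √(N:ℝ))) :=
        Real.measurable_exp.comp (hf.comp (by fun_prop))
      have m2 : Measurable fun p : Vec N × Vec N =>
          Real.exp (∑ a, f (⟪g' a, p.2⟫ / √(N:ℝ))) :=
        (measurable_energy_left hf g').comp measurable_snd
      refine integrable_bdd (m1.mul m2) (C := Real.exp B * Real.exp (M * B)) fun p => ?_
      · rw [abs_mul, abs_exp, abs_exp]
        gcongr
        · exact (abs_le.1 (hB _)).2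
        · exact (abs_le.1 (abs_sum_f_le hB _ _)).2
    have : ∫ h, partition μ f (Fin.cons h g') ∂stdGaussian (Vec N) =
        Real.exp (ann f) * partition μ f g' := by
      simp only [partition, hpt]
      rw [integral_integral_swap hI, ← integral_const_mul]
      refine integral_congr_ae (hμ.norm_eq.mono fun x hx => ?_)
      simp only [integral_mul_const, integral_exp_arg hN hf hB hx]
    rw [this, Real.log_mul (exp_pos _).ne' (partition_pos hf hB g').ne', Real.log_exp, add_comm]
  calc _ ≤ ∫ g', (Real.log (partition μ f g') + ann f) ∂patterns N M := by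
        refine integral_mono ?_ ((integrable_log_partition hf hB).add (integrable_const _)) key
        refine Integrable.of_bound ?_ ((M+1 : ℕ) * B) (Filter.Eventually.of_forall fun g' => ?_)
        · have m : Measurable fun p : Vec N × (Fin M → Vec N) =>
              Real.log (partition μ f (Fin.cons p.1 p.2)) :=
            Real.measurable_log.comp ((measurable_partition hf).comp measurable_cons)
          exact m.stronglyMeasurable.integral_prod_left'.aestronglyMeasurable
        · rw [Real.norm_eq_abs]
          exact abs_integral_le_of_abs_le fun h => abs_log_partition hf hB _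
    _ = _ := by rw [integral_add (integrable_log_partition hf hB) (integrable_const _)]; simp

/-- Adding a pattern costs at most `B`. -/
lemma Phi_succ_ge (hμ : Carried μ) (hf : Measurable f) (hB : ∀ s, |f s| ≤ B) :
    Phi μ f M - B ≤ Phi μ f (M + 1) := by
  have := hμ.prob
  have hp := measurePreserving_piFinSuccAbove (fun _ : Fin (M+1) => stdGaussian (Vec N)) 0
  have hmp : MeasurePreserving (fun g : Fin (M+1) → Vec N => Fin.tail g) (patterns N (M+1))
      (patterns N M) := by
    refine ⟨by unfold Fin.tail; fun_prop, ?_⟩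
    have hs := (measurePreserving_snd (μ := stdGaussian (Vec N)) (ν := patterns N M)).comp hp
    have hfun : (fun g : Fin (M+1) → Vec N => Fin.tail g) =
        Prod.snd ∘ ⇑(MeasurableEquiv.piFinSuccAbove (fun _ => Vec N) 0) := by
      funext g
      simp [MeasurableEquiv.piFinSuccAbove, Fin.insertNthEquiv]
    rw [hfun]
    exact hs.map_eq
  unfold Phi
  have hl : Measurable fun g : Fin M → Vec N => Real.log (partition μ f g) :=
    Real.measurable_log.comp (measurable_partition hf)
  rw [← hmp.map_eq, integral_map hmp.measurable.aemeasurable hl.aestronglyMeasurable]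
  have hint := integrable_log_partition (μ := μ) (M := M + 1) hf hB
  have hint2 : Integrable (fun g : Fin (M+1) → Vec N => Real.log (partition μ f (Fin.tail g)))
      (patterns N (M+1)) :=
    integrable_bdd (hl.comp hmp.measurable) fun g => abs_log_partition hf hB _
  have : ∀ g : Fin (M+1) → Vec N,
      Real.log (partition μ f (Fin.tail g)) - B ≤ Real.log (partition μ f g) := by
    intro g
    have h0 := partition_pos (μ := μ) hf hB (Fin.tail g)
    have hle : Real.exp (-B) * partition μ f (Fin.tail g) ≤ partition μ f g := by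
      simp only [partition, ← integral_const_mul]
      refine integral_mono ((integrable_energy hf hB _).const_mul _) (integrable_energy hf hB _)
        fun x => ?_
      simp only [← Real.exp_add]
      apply exp_le_exp.2
      rw [Fin.sum_univ_succ (f := fun a => f (⟪g a, x⟫ / √(N:ℝ)))]
      have := (abs_le.1 (hB (⟪g 0, x⟫ / √(N:ℝ)))).1
      simp only [Fin.tail]; linarith
    have := Real.log_le_log (by positivity) hle
    rw [Real.log_mul (exp_pos _).ne' h0.ne', Real.log_exp] at this
    linarith
  calc _ = ∫ g, (Real.log (partition μ f (Fin.tail g)) - B) ∂patterns N (M+1) := by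
        rw [integral_sub hint2 (integrable_const _)]; simp
    _ ≤ _ := integral_mono (hint2.sub (integrable_const _)) hint this

/-- the gap to the annealed value -/
noncomputable def gap (μ : Measure (Vec N)) (f : ℝ → ℝ) (M : ℕ) : ℝ := M * ann f - Phi μ f M

lemma gap_zero (hμ : Carried μ) : gap μ f 0 = 0 := by
  have := hμ.prob
  simp [gap, Phi, partition]

lemma gap_step (hN : 0 < N) (hμ : Carried μ) (hf : Measurable f) (hB : ∀ s, |f s| ≤ B) (M : ℕ) :
    0 ≤ gap μ f (M+1) - gap μ f M ∧ gap μ f (M+1) - gap μ f M ≤ 2 * B := by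
  have h1 := Phi_succ_le (M := M) hN hμ hf hB
  have h2 := Phi_succ_ge (M := M) hμ hf hB
  have h3 := (abs_le.1 (abs_ann_le hf hB)).2
  unfold gap; push_cast
  constructor <;> linarith

lemma gap_le_gap (hN : 0 < N) (hμ : Carried μ) (hf : Measurable f) (hB : ∀ s, |f s| ≤ B)
    {M₁ M₂ : ℕ} (h : M₁ ≤ M₂) :
    gap μ f M₁ ≤ gap μ f M₂ ∧ gap μ f M₂ ≤ gap μ f M₁ + 2 * B * ((M₂:ℝ) - M₁) := by
  induction M₂, h using Nat.le_induction with
  | base => simp
  | succ n hn ih =>
    have := gap_step hN hμ hf hB n
    push_cast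
    constructor <;> nlinarith [ih.1, ih.2, this.1, this.2]

lemma gap_nonneg (hN : 0 < N) (hμ : Carried μ) (hf : Measurable f) (hB : ∀ s, |f s| ≤ B) (M : ℕ) :
    0 ≤ gap μ f M := by
  simpa [gap_zero hμ] using (gap_le_gap hN hμ hf hB (Nat.zero_le M)).1

end Vale.Agent.P157
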