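import Mathlib

open MeasureTheory ProbabilityTheory Real
open scoped RealInnerProductSpace ENNReal

namespace Vale.Agent.P157

/-- Configurations and patterns live in `ℝ^N` with the Euclidean norm. -/
abbrev Vec (N : ℕ) := EuclideanSpace ℝ (Fin N)

/-- The uniform probability measure on the Ising cube `{-1,1}^N`. -/
noncomputable def isingUniform (N : ℕ) : Measure (Vec N) :=
  (Measure.pi fun _ : Fin N =>
    (2 : ℝ≥0∞)⁻¹ • (Measure.dirac (-1 : ℝ) + Measure.dirac 1)).map (WithLp.toLp 2)

/-- Normalised surface measure on the sphere of radius `√N` in `ℝ^N`. -/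
noncomputable def sphereUniform (N : ℕ) : Measure (Vec N) :=
  (((volume : Measure (Vec N)).toSphere Set.univ)⁻¹ • (volume : Measure (Vec N)).toSphere).map
    (fun u : Metric.sphere (0 : Vec N) 1 => Real.sqrt N • (u : Vec N))

/-- The law of `M` independent standard Gaussian patterns in `ℝ^N`. -/
noncomputable def patterns (N M : ℕ) : Measure (Fin M → Vec N) :=
  Measure.pi fun _ => stdGaussian (Vec N)

/-- The partition function. -/
noncomputable def partition {N M : ℕ} (μ : Measure (Vec N)) (f : ℝ → ℝ)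
    (g : Fin M → Vec N) : ℝ :=
  ∫ x, Real.exp (∑ a, f (⟪g a, x⟫ / Real.sqrt N)) ∂μ

/-- `𝔼 p_N(f)` with `M` patterns. -/
noncomputable def pressure {N : ℕ} (μ : Measure (Vec N)) (f : ℝ → ℝ) (M : ℕ) : ℝ :=
  (1 / (N : ℝ)) * ∫ g, Real.log (partition μ f g) ∂patterns N M

end Vale.Agent.P157
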