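import Vale.Agent.P157.Basic

open MeasureTheory ProbabilityTheory Real
open scoped RealInnerProductSpace ENNReal

namespace Vale.Agent.P157

variable {N : ℕ}

/-- The two-point function of correlated standard Gaussians. -/
noncomputable def pairFun (U : ℝ → ℝ) (q : ℝ) : ℝ :=
  ∫ p, U p.1 * U (q * p.1 + √(1 - q ^ 2) * p.2) ∂(γ.prod γ)

lemma map_second (q : ℝ) (hq : q ^ 2 ≤ 1) :
    (γ.prod γ).map (fun p : ℝ × ℝ => q * p.1 + √(1 - q ^ 2) * p.2) = γ := by
  apply Measure.ext_of_charFun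
  ext t
  rw [charFun_apply_real, integral_map (by fun_prop) (by fun_prop)]
  have h : ∀ p : ℝ × ℝ, Complex.exp ((t:ℂ) * ((q * p.1 + √(1 - q ^ 2) * p.2 : ℝ) : ℂ) * Complex.I) =
      Complex.exp (((t * q : ℝ) : ℂ) * (p.1 : ℂ) * Complex.I) *
      Complex.exp (((t * √(1 - q ^ 2) : ℝ) : ℂ) * (p.2 : ℂ) * Complex.I) := by
    intro p; rw [← Complex.exp_add]; congr 1; push_cast; ring
  simp_rw [h]
  rw [integral_prod_mul (fun x : ℝ => Complex.exp (((t * q : ℝ) : ℂ) * (x : ℂ) * Complex.I))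
    (fun x : ℝ => Complex.exp (((t * √(1 - q ^ 2) : ℝ) : ℂ) * (x : ℂ) * Complex.I)),
    ← charFun_apply_real, ← charFun_apply_real, charFun_gaussianReal, charFun_gaussianReal,
    charFun_gaussianReal, ← Complex.exp_add]
  congr 1
  have := Real.sq_sqrt (show 0 ≤ 1 - q ^ 2 by linarith)
  have h2 : ((√(1 - q ^ 2) : ℝ) : ℂ) ^ 2 = 1 - (q:ℂ) ^ 2 := by
    exact_mod_cast congrArg (fun r : ℝ => (r : ℂ)) this
  push_cast
  linear_combination (-(t:ℂ) ^ 2 / 2) * h2

lemma map_pair_stdGaussian (u v : Vec N) (hu : ‖u‖ = 1) (hv : ‖v‖ = 1) :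
    (stdGaussian (Vec N)).map (fun h => (⟪h, u⟫, ⟪h, v⟫)) =
      (γ.prod γ).map (fun p : ℝ × ℝ => (p.1, ⟪u, v⟫ * p.1 + √(1 - ⟪u, v⟫ ^ 2) * p.2)) := by
  set q : ℝ := ⟪u, v⟫ with hqdef
  have hq : q ^ 2 ≤ 1 := by
    have := abs_real_inner_le_norm u v
    rw [hu, hv, one_mul] at this
    simpa [sq_le_one_iff_abs_le_one] using this
  have hm : Measurable fun p : ℝ × ℝ => (p.1, q * p.1 + √(1 - q ^ 2) * p.2) := by fun_prop
  apply Measure.ext_of_charFunDual
  ext L
  rw [charFunDual_apply, charFunDual_apply, integral_map (by fun_prop) (by fun_prop),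
    integral_map hm.aemeasurable (by fun_prop)]
  set a := L (1, 0) with ha
  set b := L (0, 1) with hb
  have hL : ∀ s t : ℝ, L (s, t) = a * s + b * t := by
    intro s t
    have : (s, t) = s • ((1:ℝ), (0:ℝ)) + t • ((0:ℝ), (1:ℝ)) := by simp
    rw [this, map_add, map_smul, map_smul, smul_eq_mul, smul_eq_mul]; ring
  simp only [hL]
  have h1 : ∀ h : Vec N, a * ⟪h, u⟫ + b * ⟪h, v⟫ = ⟪h, a • u + b • v⟫ := by
    intro h; simp [inner_add_right, inner_smul_right]
  simp only [h1]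
  rw [← charFun_apply, charFun_stdGaussian]
  have h2 : ∀ p : ℝ × ℝ, Complex.exp (((a * p.1 + b * (q * p.1 + √(1 - q ^ 2) * p.2) : ℝ) : ℂ) * Complex.I) =
      Complex.exp (((a + b * q : ℝ) : ℂ) * (p.1 : ℂ) * Complex.I) *
      Complex.exp (((b * √(1 - q ^ 2) : ℝ) : ℂ) * (p.2 : ℂ) * Complex.I) := by
    intro p; rw [← Complex.exp_add]; congr 1; push_cast; ring
  simp_rw [h2]
  rw [integral_prod_mul (fun x : ℝ => Complex.exp (((a + b * q : ℝ) : ℂ) * (x : ℂ) * Complex.I))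
    (fun x : ℝ => Complex.exp (((b * √(1 - q ^ 2) : ℝ) : ℂ) * (x : ℂ) * Complex.I)),
    ← charFun_apply_real, ← charFun_apply_real, charFun_gaussianReal, charFun_gaussianReal,
    ← Complex.exp_add]
  congr 1
  have := Real.sq_sqrt (show 0 ≤ 1 - q ^ 2 by linarith)
  have h3 : ((√(1 - q ^ 2) : ℝ) : ℂ) ^ 2 = 1 - (q:ℂ) ^ 2 := by
    exact_mod_cast congrArg (fun r : ℝ => (r : ℂ)) this
  have h4 : ‖a • u + b • v‖ ^ 2 = a ^ 2 + 2 * (a * b * q) + b ^ 2 := by
    rw [norm_add_sq_real, norm_smul, norm_smul, hu, hv, real_inner_smul_left, inner_smul_right,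
      ← hqdef]
    simp [Real.norm_eq_abs, sq_abs]; ring
  have h5 : ((‖a • u + b • v‖ : ℝ) : ℂ) ^ 2 = (a:ℂ) ^ 2 + 2 * ((a:ℂ) * b * q) + (b:ℂ) ^ 2 := by
    exact_mod_cast congrArg (fun r : ℝ => (r : ℂ)) h4
  push_cast
  linear_combination (-(1:ℂ) / 2) * h5 + ((b:ℂ) ^ 2 / 2) * h3

lemma integral_pair_stdGaussian {U : ℝ → ℝ} (hU : Measurable U) (u v : Vec N)
    (hu : ‖u‖ = 1) (hv : ‖v‖ = 1) :
    ∫ h, U ⟪h, u⟫ * U ⟪h, v⟫ ∂stdGaussian (Vec N) = pairFun U ⟪u, v⟫ := by
  have hm : Measurable fun p : ℝ × ℝ => U p.1 * U p.2 :=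
    (hU.comp measurable_fst).mul (hU.comp measurable_snd)
  have := integral_map (μ := stdGaussian (Vec N)) (φ := fun h => (⟪h, u⟫, ⟪h, v⟫))
    (by fun_prop) hm.aestronglyMeasurable
  rw [map_pair_stdGaussian u v hu hv, integral_map (by fun_prop) hm.aestronglyMeasurable] at this
  exact this.symm

lemma abs_exp_sub (a : ℝ) : |Real.exp a - 1 - a| ≤ a ^ 2 * Real.exp |a| := by
  have h0 : 0 ≤ Real.exp a - 1 - a := by linarith [Real.add_one_le_exp a]
  rw [abs_of_nonneg h0]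
  have he : 1 ≤ Real.exp |a| := Real.one_le_exp (abs_nonneg a)
  by_cases h1 : |a| ≤ 1
  · have := Real.abs_exp_sub_one_sub_id_le h1
    rw [abs_of_nonneg h0] at this
    nlinarith [sq_nonneg a]
  · push Not at h1
    rcases le_or_gt 0 a with h | h
    · rw [abs_of_nonneg h] at h1 ⊢
      nlinarith [Real.exp_pos a, mul_nonneg (show 0 ≤ a^2 - 1 by nlinarith) (Real.exp_pos a).le]
    · rw [abs_of_neg h] at h1
      nlinarith [Real.exp_le_one_iff.2 h.le,
        mul_nonneg (sq_nonneg a) (show 0 ≤ Real.exp |a| - 1 by linarith),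
        mul_nonneg (show 0 ≤ -a by linarith) (show 0 ≤ -a - 1 by linarith)]

lemma expansion_bound {q u a c : ℝ} (hu : 1 ≤ u) (hq : |q| ≤ 1/16) (hd : |a - c| ≤ 3 * q ^ 2 * u)
    (haq : |a| ≤ 2 * |q| * u) :
    |Real.exp a - 1 - c| ≤ 896 * q ^ 2 * Real.exp (u / 4) := by
  have he8 : u ^ 2 ≤ 128 * Real.exp (u / 8) := by
    have := Real.quadratic_le_exp_of_nonneg (show 0 ≤ u / 8 by linarith)
    linarith
  have hu2 : |q| * u ≤ 1/16 * u := mul_le_mul_of_nonneg_right hq (by linarith)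
  have heu : Real.exp |a| ≤ Real.exp (u / 8) := exp_le_exp.2 (by linarith)
  have ha2 : a ^ 2 ≤ 4 * q ^ 2 * u ^ 2 := by
    calc a ^ 2 = |a| ^ 2 := (sq_abs a).symm
      _ ≤ (2 * |q| * u) ^ 2 := pow_le_pow_left₀ (abs_nonneg a) haq 2
      _ = 4 * |q| ^ 2 * u ^ 2 := by ring
      _ = _ := by rw [sq_abs]
  have h88 : Real.exp (u/8) * Real.exp (u/8) = Real.exp (u/4) := by
    rw [← Real.exp_add]; ring_nf
  have he1 : Real.exp (u/8) ≤ Real.exp (u/4) := exp_le_exp.2 (by linarith)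
  have step : |Real.exp a - 1 - c| ≤ |Real.exp a - 1 - a| + |a - c| := abs_sub_le _ _ _ |>.trans_eq' (by ring_nf)
  have t0 : u ≤ 128 * Real.exp (u/4) := by
    have : u ≤ u ^ 2 := le_self_pow₀ hu two_ne_zero
    linarith
  have t1 : 3 * q ^ 2 * u ≤ 3 * q ^ 2 * (128 * Real.exp (u/4)) :=
    mul_le_mul_of_nonneg_left t0 (by positivity)
  have t2 : a ^ 2 * Real.exp |a| ≤ (4 * q^2 * (128 * Real.exp (u/8))) * Real.exp (u/8) :=
    mul_le_mul (ha2.trans (mul_le_mul_of_nonneg_left he8 (by positivity))) heu (exp_pos _).le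
      (by positivity)
  have t3 : (4 * q^2 * (128 * Real.exp (u/8))) * Real.exp (u/8) = 512 * q ^ 2 * Real.exp (u/4) := by
    rw [← h88]; ring
  have := abs_exp_sub a
  linarith

lemma exponent_bound {q : ℝ} (hq : |q| ≤ 1/16) (s y w : ℝ) (hw0 : 0 ≤ w) (hw2 : w ≤ 2 * q ^ 2) :
    |(Real.log (1 + w) / 2 - (1 + w) * (y - q * s) ^ 2 / 2 + y ^ 2 / 2) - q * (s * y)| ≤
      3 * q ^ 2 * (1 + s ^ 2 + y ^ 2) := by
  have hq1 : |q| ≤ 1 := hq.trans (by norm_num)
  have hq2 : q ^ 2 ≤ 1 := (sq_le_one_iff_abs_le_one q).2 hq1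
  have hl0 : 0 ≤ Real.log (1 + w) := Real.log_nonneg (by linarith)
  have hl1 : Real.log (1 + w) ≤ w := by
    have := Real.log_le_sub_one_of_pos (show (0:ℝ) < 1 + w by linarith); linarith
  have hyq : (y - q * s) ^ 2 ≤ 2 * (s ^ 2 + y ^ 2) := by
    linarith [sq_nonneg (y + q * s), mul_le_mul_of_nonneg_right hq2 (sq_nonneg s)]
  have p1 : w * (y - q * s) ^ 2 ≤ 2 * q ^ 2 * (2 * (s ^ 2 + y ^ 2)) :=
    mul_le_mul hw2 hyq (sq_nonneg _) (by positivity)
  have p0 : 0 ≤ w * (y - q * s) ^ 2 := by positivity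
  have p2 : 0 ≤ q ^ 2 * s ^ 2 := by positivity
  have p3 : 0 ≤ q ^ 2 * y ^ 2 := by positivity
  have p4 : 0 ≤ q ^ 2 := by positivity
  rw [abs_le]
  constructor <;> linarith

lemma density_bound {q : ℝ} (hq : |q| ≤ 1/16) (s y : ℝ) :
    |(√(1 - q ^ 2))⁻¹ * Real.exp (-(y - q * s) ^ 2 / (2 * (1 - q ^ 2)) + y ^ 2 / 2) - 1 - q * (s * y)|
      ≤ 896 * Real.exp (1/4) * q ^ 2 * (Real.exp (s ^ 2 / 4) * Real.exp (y ^ 2 / 4)) := by
  have hq2 : q ^ 2 ≤ 1/256 := by
    have := mul_le_mul hq hq (abs_nonneg q) (by norm_num)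
    rw [← sq, sq_abs] at this; linarith
  have hσ : (0:ℝ) < 1 - q ^ 2 := by linarith
  set w := 1 / (1 - q ^ 2) - 1 with hw
  have hw1 : (1:ℝ) + w = 1 / (1 - q ^ 2) := by rw [hw]; ring
  have hw0 : 0 ≤ w := by
    rw [hw, sub_nonneg, le_div_iff₀ hσ]; linarith [sq_nonneg q]
  have hw2 : w ≤ 2 * q ^ 2 := by
    rw [hw, sub_le_iff_le_add, div_le_iff₀ hσ]
    linarith [mul_nonneg (sq_nonneg q) (show 0 ≤ 1 - 2 * q ^ 2 by linarith)]
  set a := Real.log (1 + w) / 2 - (1 + w) * (y - q * s) ^ 2 / 2 + y ^ 2 / 2 with ha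
  have hr : (√(1 - q ^ 2))⁻¹ * Real.exp (-(y - q * s) ^ 2 / (2 * (1 - q ^ 2)) + y ^ 2 / 2) =
      Real.exp a := by
    have : (√(1 - q ^ 2))⁻¹ = Real.exp (Real.log (1 + w) / 2) := by
      rw [hw1, one_div, Real.log_inv, ← Real.exp_log (Real.sqrt_pos.2 hσ), ← Real.exp_neg,
        Real.log_sqrt hσ.le]
      ring_nf
    rw [this, ← Real.exp_add, ha, hw1]
    congr 1
    field_simp
    ring
  rw [hr]
  set u := 1 + s ^ 2 + y ^ 2 with hu
  have hu1 : 1 ≤ u := by rw [hu]; linarith [sq_nonneg s, sq_nonneg y]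
  have hd : |a - q * (s * y)| ≤ 3 * q ^ 2 * u := exponent_bound hq s y w hw0 hw2
  have hsy : |q * (s * y)| ≤ |q| * u := by
    rw [abs_mul]
    refine mul_le_mul_of_nonneg_left ?_ (abs_nonneg q)
    rw [abs_mul, hu]
    linarith [sq_abs s, sq_abs y, sq_nonneg (|s| - |y|), mul_nonneg (abs_nonneg s) (abs_nonneg y)]
  have h16 : q ^ 2 ≤ |q| / 16 := by
    have := mul_le_mul_of_nonneg_left hq (abs_nonneg q)
    rw [← sq, sq_abs] at this; linarith
  have haq : |a| ≤ 2 * |q| * u := by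
    have h := abs_add_le (a - q * (s * y)) (q * (s * y))
    rw [sub_add_cancel] at h
    linarith [mul_le_mul_of_nonneg_right h16 (show (0:ℝ) ≤ u by linarith),
      mul_nonneg (abs_nonneg q) (show (0:ℝ) ≤ u by linarith)]
  have hE : Real.exp (u / 4) = Real.exp (1/4) * (Real.exp (s ^ 2 / 4) * Real.exp (y ^ 2 / 4)) := by
    rw [← Real.exp_add, ← Real.exp_add]; congr 1; rw [hu]; ring
  have := expansion_bound hu1 hq hd haq
  rw [hE] at this
  linarith

lemma integrable_exp_sq {c : ℝ} (hc : c ≤ 1/4) : Integrable (fun x => Real.exp (c * x ^ 2)) γ := by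
  rw [γ, gaussianReal_of_var_ne_zero _ one_ne_zero]
  rw [integrable_withDensity_iff (measurable_gaussianPDF _ _)
    (Filter.Eventually.of_forall fun x => gaussianPDF_lt_top)]
  refine ((integrable_exp_neg_mul_sq (show 0 < 1/2 - c by linarith)).const_mul
    (√(2 * π * 1))⁻¹).congr (Filter.Eventually.of_forall fun x => ?_)
  simp only [toReal_gaussianPDF, gaussianPDFReal_def, NNReal.coe_one, sub_zero]
  rw [mul_left_comm, ← Real.exp_add]
  ring_nf

/-- `∫ exp (x²/4) dγ` -/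
noncomputable def K4 : ℝ := ∫ x, Real.exp (x ^ 2 / 4) ∂γ

lemma integrable_K4 : Integrable (fun x => Real.exp (x ^ 2 / 4)) γ := by
  refine (integrable_exp_sq le_rfl).congr (Filter.Eventually.of_forall fun x => ?_)
  show Real.exp _ = _; ring_nf

lemma one_le_K4 : 1 ≤ K4 := by
  have := integral_mono (integrable_const (1:ℝ)) integrable_K4
    (fun x => Real.one_le_exp (by positivity))
  simpa [K4] using this

lemma integral_exp_sq_le_K4 {c : ℝ} (hc : c ≤ 1/4) : ∫ x, Real.exp (c * x ^ 2) ∂γ ≤ K4 :=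
  integral_mono (integrable_exp_sq hc) integrable_K4 fun x => exp_le_exp.2 (by nlinarith [sq_nonneg x])

/-- constant in the bound on the two-point function -/
noncomputable def Cpair : ℝ := 896 * Real.exp (1/4) * K4 ^ 2 + 256

lemma Cpair_pos : 0 < Cpair := by unfold Cpair; positivity

lemma pairFun_le {U : ℝ → ℝ} (hU : Measurable U) {m D : ℝ} (hD : ∀ x, |U x - m| ≤ D)
    (hm : ∫ x, U x ∂γ = m) (h1 : ∫ x, x * U x ∂γ = 0) {q : ℝ} (hq : q ^ 2 ≤ 1) :
    |pairFun U q - m ^ 2| ≤ Cpair * D ^ 2 * q ^ 2 := by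
  set V := fun x => U x - m with hV
  have hVm : Measurable V := hU.sub_const m
  have hD0 : 0 ≤ D := (abs_nonneg _).trans (hD 0)
  have iV : Integrable V γ := integrable_bdd hVm hD
  have iU : Integrable U γ := integrable_bdd hU (C := D + |m|) fun x => by
    have := abs_add_le (V x) m; simp only [hV, sub_add_cancel] at this; linarith [hD x]
  have eV : ∫ x, V x ∂γ = 0 := by
    simp only [hV]; rw [integral_sub iU (integrable_const _), hm]; simp
  have iid : Integrable (fun x : ℝ => x) γ :=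
    (memLp_id_gaussianReal 1).integrable (by norm_num)
  have isV : Integrable (fun x => x * V x) γ :=
    iid.mul_bdd hVm.aestronglyMeasurable (c := D) (Filter.Eventually.of_forall fun x => by simpa using hD x)
  have esV : ∫ x, x * V x ∂γ = 0 := by
    have isU : Integrable (fun x => x * U x) γ :=
      iid.mul_bdd hU.aestronglyMeasurable (c := D + |m|) (Filter.Eventually.of_forall fun x => by
        have := abs_add_le (V x) m; simp only [hV, sub_add_cancel] at this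
        rw [Real.norm_eq_abs]; linarith [hD x])
    simp only [hV, mul_sub]
    rw [integral_sub isU (iid.mul_const m), integral_mul_const, h1, integral_id_gaussianReal]
    simp
  set σ := √(1 - q ^ 2) with hσdef
  have hT : Measurable fun p : ℝ × ℝ => q * p.1 + σ * p.2 := by fun_prop
  have iVV : Integrable (fun p : ℝ × ℝ => V p.1 * V (q * p.1 + σ * p.2)) (γ.prod γ) :=
    integrable_bdd ((hVm.comp measurable_fst).mul (hVm.comp hT)) (C := D * D) fun p => by
      rw [abs_mul]; exact mul_le_mul (hD _) (hD _) (abs_nonneg _) hD0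
  have e2 : ∫ p, V (q * p.1 + σ * p.2) ∂(γ.prod γ) = 0 := by
    rw [← integral_map hT.aemeasurable hVm.aestronglyMeasurable, map_second q hq, eV]
  have hdecomp : pairFun U q - m ^ 2 = ∫ p, V p.1 * V (q * p.1 + σ * p.2) ∂(γ.prod γ) := by
    have i1 : Integrable (fun p : ℝ × ℝ => V p.1 * m) (γ.prod γ) := (iV.comp_fst γ).mul_const m
    have i2 : Integrable (fun p : ℝ × ℝ => m * V (q * p.1 + σ * p.2)) (γ.prod γ) :=
      (integrable_bdd (hVm.comp hT) fun p => hD _).const_mul m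
    have key : pairFun U q = ∫ p, (V p.1 * V (q * p.1 + σ * p.2) + V p.1 * m +
        (m * V (q * p.1 + σ * p.2) + m ^ 2)) ∂(γ.prod γ) := by
      unfold pairFun; congr 1; funext p; simp only [hV, ← hσdef]; ring
    have i3 : Integrable (fun p : ℝ × ℝ => m * V (q * p.1 + σ * p.2) + m ^ 2) (γ.prod γ) :=
      i2.add (integrable_const _)
    have i4 : Integrable (fun p : ℝ × ℝ => V p.1 * V (q * p.1 + σ * p.2) + V p.1 * m) (γ.prod γ) :=
      iVV.add i1
    rw [key, integral_add i4 i3, integral_add iVV i1, integral_add i2 (integrable_const _),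
      integral_mul_const, integral_const_mul, e2, integral_fun_fst, eV]
    simp
  rw [hdecomp]
  by_cases hsmall : |q| ≤ 1/16
  swap
  · have hb := abs_integral_le_of_abs_le (ν := γ.prod γ)
      (F := fun p : ℝ × ℝ => V p.1 * V (q * p.1 + σ * p.2)) (C := D * D) fun p => by
        rw [abs_mul]; exact mul_le_mul (hD _) (hD _) (abs_nonneg _) hD0
    refine hb.trans ?_
    push Not at hsmall
    have hh : 1 ≤ 256 * q ^ 2 := by nlinarith [sq_abs q]
    have : 256 ≤ Cpair := by unfold Cpair; nlinarith [exp_pos (1/4 : ℝ), sq_nonneg K4]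
    nlinarith [mul_le_mul_of_nonneg_left hh (mul_self_nonneg D),
      mul_le_mul_of_nonneg_right this (show 0 ≤ D ^ 2 * q ^ 2 by positivity)]
  have hσpos : 0 < 1 - q ^ 2 := by nlinarith [sq_abs q, abs_nonneg q]
  set r := fun s y : ℝ => σ⁻¹ * Real.exp (-(y - q * s) ^ 2 / (2 * (1 - q ^ 2)) + y ^ 2 / 2) with hrdef
  have hfib : ∀ s : ℝ, ∫ t, V (q * s + σ * t) ∂γ = ∫ y, V y * r s y ∂γ := by
    intro s
    have hmap : γ.map (fun t => q * s + σ * t) = gaussianReal (q * s) (1 - q ^ 2).toNNReal := by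
      have : (fun t => q * s + σ * t) = (fun t => q * s + t) ∘ (fun t => σ * t) := rfl
      rw [this, ← Measure.map_map (by fun_prop) (by fun_prop), γ, gaussianReal_map_const_mul,
        gaussianReal_map_const_add]
      congr 1
      · simp
      · ext
        simp only [mul_one, Real.coe_toNNReal _ hσpos.le, NNReal.coe_mk]
        exact Real.sq_sqrt hσpos.le
    have hv : (1 - q ^ 2).toNNReal ≠ 0 := by
      simpa [Real.toNNReal_eq_zero, not_le] using hσpos
    rw [← integral_map (by fun_prop) hVm.aestronglyMeasurable, hmap,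
      integral_gaussianReal_eq_integral_smul hv, integral_gaussianReal_eq_integral_smul one_ne_zero]
    congr 1; funext y
    have hy : gaussianPDFReal 0 1 y * Real.exp (y ^ 2 / 2) = (√(2 * π))⁻¹ := by
      rw [gaussianPDFReal_def]
      simp only [NNReal.coe_one, mul_one, sub_zero]
      rw [mul_assoc, ← Real.exp_add]
      ring_nf; simp
    have hq' : gaussianPDFReal (q * s) (1 - q ^ 2).toNNReal y =
        (√(2 * π))⁻¹ * σ⁻¹ * Real.exp (-(y - q * s) ^ 2 / (2 * (1 - q ^ 2))) := by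
      rw [gaussianPDFReal_def]
      simp only [Real.coe_toNNReal _ hσpos.le]
      rw [Real.sqrt_mul (by positivity : (0:ℝ) ≤ 2 * π) (1 - q ^ 2), mul_inv, hσdef]
    have hr' : r s y = σ⁻¹ * (Real.exp (-(y - q * s) ^ 2 / (2 * (1 - q ^ 2))) * Real.exp (y ^ 2 / 2)) := by
      simp only [hrdef]; rw [Real.exp_add]
    rw [smul_eq_mul, smul_eq_mul, hq', hr', ← hy]
    ring
  have hG : Integrable (fun p : ℝ × ℝ => Real.exp (p.1 ^ 2 / 4) * Real.exp (p.2 ^ 2 / 4)) (γ.prod γ) :=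
    integrable_K4.mul_prod integrable_K4
  set C0 := 896 * Real.exp (1/4) with hC0
  have hbd : ∀ p : ℝ × ℝ, ‖V p.1 * V p.2 * (r p.1 p.2 - 1 - q * (p.1 * p.2))‖ ≤
      D * D * (C0 * q ^ 2 * (Real.exp (p.1 ^ 2 / 4) * Real.exp (p.2 ^ 2 / 4))) := by
    intro p; rw [Real.norm_eq_abs, abs_mul, abs_mul]
    exact mul_le_mul (mul_le_mul (hD _) (hD _) (abs_nonneg _) hD0) (density_bound hsmall p.1 p.2)
      (abs_nonneg _) (by positivity)
  have hmeas : Measurable fun p : ℝ × ℝ => V p.1 * V p.2 * (r p.1 p.2 - 1 - q * (p.1 * p.2)) := by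
    simp only [hrdef]
    exact ((hVm.comp measurable_fst).mul (hVm.comp measurable_snd)).mul (by fun_prop)
  have iR : Integrable (fun p : ℝ × ℝ => V p.1 * V p.2 * (r p.1 p.2 - 1 - q * (p.1 * p.2))) (γ.prod γ) :=
    ((hG.const_mul (C0 * q ^ 2)).const_mul (D * D)).mono' hmeas.aestronglyMeasurable
      (Filter.Eventually.of_forall hbd)
  have iA : Integrable (fun p : ℝ × ℝ => V p.1 * V p.2) (γ.prod γ) := iV.mul_prod iV
  have iB : Integrable (fun p : ℝ × ℝ => q * ((p.1 * V p.1) * (p.2 * V p.2))) (γ.prod γ) :=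
    (isV.mul_prod isV).const_mul q
  have iAB : Integrable (fun p : ℝ × ℝ => V p.1 * V p.2 + q * ((p.1 * V p.1) * (p.2 * V p.2)))
      (γ.prod γ) := iA.add iB
  have iS : Integrable (fun p : ℝ × ℝ => V p.1 * V p.2 * r p.1 p.2) (γ.prod γ) :=
    (iR.add iAB).congr (Filter.Eventually.of_forall fun p => by simp only [Pi.add_apply]; ring)
  have hS : ∫ p, V p.1 * V (q * p.1 + σ * p.2) ∂(γ.prod γ) =
      ∫ p, V p.1 * V p.2 * (r p.1 p.2 - 1 - q * (p.1 * p.2)) ∂(γ.prod γ) := by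
    have e0 : ∫ p, V p.1 * V (q * p.1 + σ * p.2) ∂(γ.prod γ) =
        ∫ p, V p.1 * V p.2 * r p.1 p.2 ∂(γ.prod γ) := by
      rw [integral_prod _ iVV, integral_prod _ iS]
      congr 1; funext s
      simp only [mul_assoc, integral_const_mul, hfib]
    have e1 : ∫ p, V p.1 * V p.2 + q * ((p.1 * V p.1) * (p.2 * V p.2)) ∂(γ.prod γ) = 0 := by
      rw [integral_add iA iB, integral_const_mul, integral_prod_mul,
        integral_prod_mul (fun x => x * V x) (fun x => x * V x), eV, esV]; ring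
    rw [e0, eq_comm, ← add_zero (∫ p, V p.1 * V p.2 * (r p.1 p.2 - 1 - q * (p.1 * p.2)) ∂(γ.prod γ)),
      ← e1, ← integral_add iR iAB]
    congr 1; funext p; ring
  rw [hS, ← Real.norm_eq_abs]
  refine (norm_integral_le_of_norm_le ((hG.const_mul (C0 * q ^ 2)).const_mul (D * D))
    (Filter.Eventually.of_forall hbd)).trans ?_
  rw [integral_const_mul, integral_const_mul,
    integral_prod_mul (fun x => Real.exp (x ^ 2 / 4)) (fun x => Real.exp (x ^ 2 / 4))]
  have hc : C0 * K4 ^ 2 ≤ Cpair := by unfold Cpair; linarith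
  have := mul_le_mul_of_nonneg_right hc (show 0 ≤ D ^ 2 * q ^ 2 by positivity)
  unfold K4 at this
  linarith

end Vale.Agent.P157
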