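import Vale.Agent.P157.Pair

open MeasureTheory ProbabilityTheory Real
open scoped RealInnerProductSpace ENNReal

namespace Vale.Agent.P157

variable {N M : ℕ}

lemma variance_bdd_diff {α : Type*} {mα : MeasurableSpace α} {ν : Measure α} [IsProbabilityMeasure ν]
    {c : ℝ} : ∀ (M : ℕ) (F : (Fin M → α) → ℝ), Measurable F → ∀ C : ℝ, (∀ g, |F g| ≤ C) →
    (∀ g g' : Fin M → α, ∀ i, (∀ j ≠ i, g j = g' j) → |F g - F g'| ≤ c) →
    ∫ g, (F g - ∫ g', F g' ∂Measure.pi (fun _ : Fin M => ν)) ^ 2 ∂Measure.pi (fun _ : Fin M => ν)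
      ≤ M * c ^ 2 := by
  intro M
  induction M with
  | zero =>
    intro F hF C hC _
    have : ∀ g : Fin 0 → α, F g = F (fun i => i.elim0) := fun g => congrArg F (Subsingleton.elim _ _)
    rw [integral_congr_ae (Filter.Eventually.of_forall fun g => by
      simp only [this g, integral_congr_ae (Filter.Eventually.of_forall this)]; rfl)]
    simp
  | succ M ih =>
    intro F hF C hC hd
    set P := Measure.pi (fun _ : Fin M => ν) with hP
    set Q := Measure.pi (fun _ : Fin (M+1) => ν) with hQ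
    have hcons : Measurable fun p : α × (Fin M → α) => (Fin.cons p.1 p.2 : Fin (M+1) → α) := by
      refine measurable_pi_lambda _ (Fin.cases ?_ ?_)
      · simp only [Fin.cons_zero]; exact measurable_fst
      · intro i; simp only [Fin.cons_succ]; exact (measurable_pi_apply i).comp measurable_snd
    have hsplit : ∀ H : (Fin (M+1) → α) → ℝ, Measurable H → ∀ D : ℝ, (∀ g, |H g| ≤ D) →
        ∫ g, H g ∂Q = ∫ g', ∫ h, H (Fin.cons h g') ∂ν ∂P := by
      intro H hH D hD
      have hp := (measurePreserving_piFinSuccAbove (fun _ : Fin (M+1) => ν) 0).symm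
      have h1 := hp.integral_comp' (g := H)
      have hi : Integrable (fun p : α × (Fin M → α) => H (Fin.cons p.1 p.2)) (ν.prod P) :=
        integrable_bdd (hH.comp hcons) fun p => hD _
      rw [← integral_integral_swap (f := fun h g' => H (Fin.cons h g')) hi, integral_integral hi,
        hQ, ← h1]
      simp [MeasurableEquiv.piFinSuccAbove, Fin.insertNthEquiv, Fin.insertNth_zero', P]
    have hjm : Measurable fun p : α × (Fin M → α) => F (Fin.cons p.1 p.2) := hF.comp hcons
    set G := fun g' : Fin M → α => ∫ h, F (Fin.cons h g') ∂ν with hG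
    have hGm : Measurable G := hjm.stronglyMeasurable.integral_prod_left'.measurable
    have hGb : ∀ g', |G g'| ≤ C := fun g' => abs_integral_le_of_abs_le fun h => hC _
    have hih := ih G hGm C hGb (by
      intro g g' i hgi
      have m : ∀ u : Fin M → α, Measurable fun h : α => F (Fin.cons h u) :=
        fun u => hjm.comp (measurable_id.prodMk measurable_const)
      rw [hG, ← integral_sub (integrable_bdd (m g) fun h => hC _) (integrable_bdd (m g') fun h => hC _)]
      refine abs_integral_le_of_abs_le fun h => hd _ _ i.succ fun j hj => ?_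
      induction j using Fin.cases with
      | zero => simp
      | succ j => simp; exact hgi j fun e => hj (by rw [e]))
    set e := ∫ g, F g ∂Q with he
    have heG : ∫ g', G g' ∂P = e := (hsplit F hF C hC).symm
    have heb : |e| ≤ C := abs_integral_le_of_abs_le hC
    have hsq : ∀ {x y : ℝ}, |x| ≤ C → |y| ≤ C → |(x - y) ^ 2| ≤ (2 * C) ^ 2 := by
      intro x y hx hy
      rw [abs_of_nonneg (sq_nonneg _)]
      have := abs_sub x y
      nlinarith [sq_abs (x - y), abs_nonneg (x - y)]
    rw [hsplit _ ((hF.sub_const e).pow_const 2) _ (fun g => hsq (hC g) heb)]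
    have inner : ∀ g' : Fin M → α, ∫ h, (F (Fin.cons h g') - e) ^ 2 ∂ν ≤ c ^ 2 + (G g' - e) ^ 2 := by
      intro g'
      have mh : Measurable fun h : α => F (Fin.cons h g') :=
        hjm.comp (measurable_id.prodMk measurable_const)
      have i0 : Integrable (fun h => F (Fin.cons h g')) ν := integrable_bdd mh fun h => hC _
      have i1 : Integrable (fun h => (F (Fin.cons h g') - G g') ^ 2) ν :=
        integrable_bdd ((mh.sub_const _).pow_const 2) fun h => hsq (hC _) (hGb g')
      have i2 : Integrable (fun h => (2 * (G g' - e)) * (F (Fin.cons h g') - G g')) ν :=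
        (i0.sub (integrable_const _)).const_mul _
      have eq : ∀ h, (F (Fin.cons h g') - e) ^ 2 = (F (Fin.cons h g') - G g') ^ 2 +
          (2 * (G g' - e)) * (F (Fin.cons h g') - G g') + (G g' - e) ^ 2 := fun h => by ring
      have i12 : Integrable (fun h => (F (Fin.cons h g') - G g') ^ 2 +
          (2 * (G g' - e)) * (F (Fin.cons h g') - G g')) ν := i1.add i2
      simp only [eq]
      rw [integral_add i12 (integrable_const _), integral_add i1 i2, integral_const_mul,
        integral_sub i0 (integrable_const _)]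
      have hz : ∫ h, F (Fin.cons h g') ∂ν - ∫ _, G g' ∂ν = 0 := by simp [hG]
      rw [hz]
      simp only [mul_zero, add_zero, integral_const, probReal_univ, one_smul]
      have : ∫ h, (F (Fin.cons h g') - G g') ^ 2 ∂ν ≤ c ^ 2 := by
        refine (le_abs_self _).trans (abs_integral_le_of_abs_le fun h => ?_)
        have hc : |F (Fin.cons h g') - G g'| ≤ c := by
          have : F (Fin.cons h g') - G g' = ∫ h', (F (Fin.cons h g') - F (Fin.cons h' g')) ∂ν := by
            rw [integral_sub (integrable_const _) i0]; simp [hG]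
          rw [this]
          refine abs_integral_le_of_abs_le fun h' => hd _ _ 0 fun j hj => ?_
          obtain ⟨k, rfl⟩ := Fin.exists_succ_eq.2 hj
          simp
        rw [abs_of_nonneg (sq_nonneg _), ← sq_abs]
        exact pow_le_pow_left₀ (abs_nonneg _) hc 2
      linarith
    have iG : Integrable (fun g' => (G g' - e) ^ 2) P :=
      integrable_bdd ((hGm.sub_const e).pow_const 2) fun g' => hsq (hGb g') heb
    have iL : Integrable (fun g' => ∫ h, (F (Fin.cons h g') - e) ^ 2 ∂ν) P :=
      integrable_bdd ((hjm.sub_const e).pow_const 2).stronglyMeasurable.integral_prod_left'.measurable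
        fun g' => abs_integral_le_of_abs_le fun h => hsq (hC _) heb
    calc _ ≤ ∫ g', (c ^ 2 + (G g' - e) ^ 2) ∂P := integral_mono iL ((integrable_const _).add iG) inner
      _ = c ^ 2 + ∫ g', (G g' - e) ^ 2 ∂P := by rw [integral_add (integrable_const _) iG]; simp
      _ ≤ _ := by
        have := hih
        rw [heG] at this
        push_cast; linarith

/-- Bound on the overlap of two independent configurations. -/
def OverlapBound (μ : Measure (Vec N)) (K : ℝ) : Prop :=
  ∫ p, Real.exp ((1/8) * (⟪p.1, p.2⟫ ^ 2 / N)) ∂(μ.prod μ) ≤ K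

variable {μ : Measure (Vec N)} {f : ℝ → ℝ} {B : ℝ}

lemma log_partition_diff (hμ : Carried μ) (hf : Measurable f) (hB : ∀ s, |f s| ≤ B)
    (g g' : Fin M → Vec N) (i : Fin M) (h : ∀ j ≠ i, g j = g' j) :
    |Real.log (partition μ f g) - Real.log (partition μ f g')| ≤ 2 * B := by
  have := hμ.prob
  suffices key : ∀ g g' : Fin M → Vec N, (∀ j ≠ i, g j = g' j) →
      Real.log (partition μ f g) ≤ Real.log (partition μ f g') + 2 * B by
    rw [abs_le]
    exact ⟨by linarith [key g' g fun j hj => (h j hj).symm], by linarith [key g g' h]⟩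
  intro g g' h
  have hp := partition_pos (μ := μ) hf hB g'
  have hle : partition μ f g ≤ Real.exp (2 * B) * partition μ f g' := by
    simp only [partition, ← integral_const_mul]
    refine integral_mono (integrable_energy hf hB g) ((integrable_energy hf hB g').const_mul _)
      fun x => ?_
    simp only [← Real.exp_add]
    apply exp_le_exp.2
    rw [← Finset.add_sum_erase _ _ (Finset.mem_univ i), ← Finset.add_sum_erase _ _ (Finset.mem_univ i)]
    have : ∑ a ∈ Finset.univ.erase i, f (⟪g a, x⟫ / √(N:ℝ)) =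
        ∑ a ∈ Finset.univ.erase i, f (⟪g' a, x⟫ / √(N:ℝ)) :=
      Finset.sum_congr rfl fun a ha => by rw [h a (Finset.ne_of_mem_erase ha)]
    rw [this]
    linarith [(abs_le.1 (hB (⟪g i, x⟫ / √(N:ℝ)))).2, (abs_le.1 (hB (⟪g' i, x⟫ / √(N:ℝ)))).1]
  have := Real.log_le_log (partition_pos hf hB g) hle
  rw [Real.log_mul (exp_pos _).ne' hp.ne', Real.log_exp] at this
  linarith

lemma integral_partition (hN : 0 < N) (hμ : Carried μ) (hf : Measurable f) (hB : ∀ s, |f s| ≤ B) :
    ∫ g, partition (M := M) μ f g ∂patterns N M = Real.exp (ann f) ^ M := by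
  have := hμ.prob
  have hI : Integrable (fun p : (Fin M → Vec N) × Vec N =>
      Real.exp (∑ a, f (⟪p.1 a, p.2⟫ / √(N:ℝ)))) ((patterns N M).prod μ) :=
    integrable_bdd (measurable_energy hf) (C := Real.exp (M * B)) fun p => by
      rw [abs_exp]; exact exp_le_exp.2 (abs_le.1 (abs_sum_f_le hB _ _)).2
  unfold partition
  rw [integral_integral_swap hI]
  calc _ = ∫ _x, Real.exp (ann f) ^ M ∂μ := integral_congr_ae (hμ.norm_eq.mono fun x hx => by
        simp only [Real.exp_sum, patterns]
        rw [integral_fintype_prod_eq_pow (fun h : Vec N => Real.exp (f (⟪h, x⟫ / √(N:ℝ)))),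
          integral_exp_arg hN hf hB hx, Fintype.card_fin])
    _ = _ := by simp

lemma norm_eq_prod (hμ : Carried μ) :
    ∀ᵐ p ∂(μ.prod μ), ‖p.1‖ = √(N:ℝ) ∧ ‖p.2‖ = √(N:ℝ) := by
  have := hμ.prob
  have h1 : ∀ᵐ p ∂(μ.prod μ), ‖p.1‖ = √(N:ℝ) := Measure.quasiMeasurePreserving_fst.ae hμ.norm_eq
  have h2 : ∀ᵐ p ∂(μ.prod μ), ‖p.2‖ = √(N:ℝ) := Measure.quasiMeasurePreserving_snd.ae hμ.norm_eq
  exact h1.and h2

lemma integral_partition_sq_le_of_pair (hN : 0 < N) (hμ : Carried μ) (hf : Measurable f)
    (hB : ∀ s, |f s| ≤ B) {K : ℝ} {W : Vec N × Vec N → ℝ} (hWI : Integrable W (μ.prod μ))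
    (hWK : ∫ p, W p ∂(μ.prod μ) ≤ K)
    (hW : ∀ᵐ p ∂(μ.prod μ), pairFun (fun s => Real.exp (f s)) (⟪p.1, p.2⟫ / N) ^ M ≤
      (Real.exp (ann f) ^ M) ^ 2 * W p) :
    ∫ g, partition (M := M) μ f g ^ 2 ∂patterns N M ≤ K * (Real.exp (ann f) ^ M) ^ 2 := by
  have := hμ.prob
  set m := Real.exp (ann f) with hm
  have hU : Measurable fun s => Real.exp (f s) := Real.measurable_exp.comp hf
  set E2 := fun p : Vec N × Vec N =>
    ∫ h, Real.exp (f (⟪h, p.1⟫ / √(N:ℝ))) * Real.exp (f (⟪h, p.2⟫ / √(N:ℝ))) ∂stdGaussian (Vec N)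
  have hpt : ∀ᵐ p ∂(μ.prod μ), E2 p ^ M ≤ (m ^ M) ^ 2 * W p := by
    filter_upwards [norm_eq_prod hμ, hW] with p hp hw
    have hu := unit_of_norm hN hp.1
    have hv := unit_of_norm hN hp.2
    have hqv : (⟪(√(N:ℝ))⁻¹ • p.1, (√(N:ℝ))⁻¹ • p.2⟫ : ℝ) = ⟪p.1, p.2⟫ / N := by
      have hs : √(N:ℝ) * √(N:ℝ) = N := Real.mul_self_sqrt (Nat.cast_nonneg _)
      rw [real_inner_smul_left, inner_smul_right, ← mul_assoc, ← mul_inv, hs, inv_mul_eq_div]
    have hE : E2 p = pairFun (fun s => Real.exp (f s)) (⟪p.1, p.2⟫ / N) := by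
      simp only [E2, arg_eq, ← hqv]
      exact integral_pair_stdGaussian hU _ _ hu hv
    rw [hE]; exact hw
  set T := fun (g : Fin M → Vec N) (p : Vec N × Vec N) =>
    ∏ a, (Real.exp (f (⟪g a, p.1⟫ / √(N:ℝ))) * Real.exp (f (⟪g a, p.2⟫ / √(N:ℝ))))
  have hT : ∀ g, partition μ f g ^ 2 = ∫ p, T g p ∂(μ.prod μ) := by
    intro g
    simp only [T, sq, partition, Real.exp_sum, Finset.prod_mul_distrib]
    exact (integral_prod_mul (fun x => ∏ a, Real.exp (f (⟪g a, x⟫ / √(N:ℝ))))
      (fun x => ∏ a, Real.exp (f (⟪g a, x⟫ / √(N:ℝ))))).symm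
  have hI : Integrable (fun z : (Fin M → Vec N) × (Vec N × Vec N) => T z.1 z.2)
      ((patterns N M).prod (μ.prod μ)) := by
    refine integrable_bdd (Finset.measurable_prod _ fun a _ => ?_)
      (C := (Real.exp B * Real.exp B) ^ M) fun z => ?_
    · exact (Real.measurable_exp.comp (hf.comp (by fun_prop))).mul
        (Real.measurable_exp.comp (hf.comp (by fun_prop)))
    · simp only [T]; rw [Finset.abs_prod]
      refine (Finset.prod_le_prod (fun a _ => abs_nonneg _) (g := fun _ => Real.exp B * Real.exp B)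
        fun a _ => ?_).trans (by simp)
      rw [abs_mul, abs_exp, abs_exp]
      gcongr
      · exact (abs_le.1 (hB _)).2
      · exact (abs_le.1 (hB _)).2
  simp only [hT]
  rw [integral_integral_swap hI]
  calc ∫ p, ∫ g, T g p ∂patterns N M ∂(μ.prod μ) = ∫ p, E2 p ^ M ∂(μ.prod μ) := by
        congr 1; funext p
        simp only [T, patterns]
        rw [integral_fintype_prod_eq_pow
          (fun h : Vec N => Real.exp (f (⟪h, p.1⟫ / √(N:ℝ))) * Real.exp (f (⟪h, p.2⟫ / √(N:ℝ))))]
        simp [E2]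
    _ ≤ ∫ p, (m ^ M) ^ 2 * W p ∂(μ.prod μ) :=
        integral_mono_of_nonneg (Filter.Eventually.of_forall fun p =>
          pow_nonneg (integral_nonneg fun h => by positivity) M) (hWI.const_mul _) hpt
    _ ≤ _ := by
        rw [integral_const_mul, mul_comm K]
        exact mul_le_mul_of_nonneg_left hWK (by positivity)

lemma integral_partition_sq_le (hN : 0 < N) (hμ : Carried μ) {K : ℝ} (hK : OverlapBound μ K)
    (hf : Measurable f) (hB : ∀ s, |f s| ≤ B) (h1 : ∫ s, s * Real.exp (f s) ∂γ = 0)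
    {r : ℝ} (hr : ∀ s t, f s - f t ≤ r)
    (hsmall : 8 * Cpair * (Real.exp r - 1) ^ 2 * M ≤ N) :
    ∫ g, partition (M := M) μ f g ^ 2 ∂patterns N M ≤ K * (Real.exp (ann f) ^ M) ^ 2 := by
  have := hμ.prob
  set m := Real.exp (ann f) with hm
  have hmI : ∫ s, Real.exp (f s) ∂γ = m := (exp_ann hf hB).symm
  have hD : ∀ s, |Real.exp (f s) - m| ≤ (Real.exp r - 1) * m := by
    intro s
    have a1 : Real.exp (f s) ≤ Real.exp r * m := by
      have := integral_mono (integrable_const (Real.exp (f s)))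
        ((integrable_exp_f hf hB).const_mul (Real.exp r)) fun t => by
          rw [← Real.exp_add]; exact exp_le_exp.2 (by linarith [hr s t])
      rwa [integral_const_mul, hmI, integral_const, probReal_univ, one_smul] at this
    have a2 : m ≤ Real.exp r * Real.exp (f s) := by
      have := integral_mono (integrable_exp_f hf hB) (integrable_const (Real.exp r * Real.exp (f s)))
        fun t => by rw [← Real.exp_add]; exact exp_le_exp.2 (by linarith [hr t s])
      rwa [hmI, integral_const, probReal_univ, one_smul] at this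
    have hm0 : 0 < m := exp_pos _
    have hr1 : 1 ≤ Real.exp r := Real.one_le_exp (by linarith [hr 0 0])
    rw [abs_le]
    constructor
    · rcases le_total m (Real.exp (f s)) with h | h <;>
        nlinarith [mul_le_mul_of_nonneg_left h (show 0 ≤ Real.exp r - 1 by linarith)]
    · linarith
  set κ := Real.exp r - 1 with hκ
  have hU : Measurable fun s => Real.exp (f s) := Real.measurable_exp.comp hf
  have hpt : ∀ᵐ p ∂(μ.prod μ), pairFun (fun s => Real.exp (f s)) (⟪p.1, p.2⟫ / N) ^ M ≤
      (m ^ M) ^ 2 * Real.exp ((1/8) * (⟪p.1, p.2⟫ ^ 2 / N)) := by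
    filter_upwards [norm_eq_prod hμ] with p hp
    have hu := unit_of_norm hN hp.1
    have hv := unit_of_norm hN hp.2
    have hqv : (⟪(√(N:ℝ))⁻¹ • p.1, (√(N:ℝ))⁻¹ • p.2⟫ : ℝ) = ⟪p.1, p.2⟫ / N := by
      have hs : √(N:ℝ) * √(N:ℝ) = N := Real.mul_self_sqrt (Nat.cast_nonneg _)
      rw [real_inner_smul_left, inner_smul_right, ← mul_assoc, ← mul_inv, hs, inv_mul_eq_div]
    have hq : (⟪p.1, p.2⟫ / (N:ℝ)) ^ 2 ≤ 1 := by
      rw [← hqv, sq_le_one_iff_abs_le_one]
      simpa [hu, hv] using abs_real_inner_le_norm ((√(N:ℝ))⁻¹ • p.1) ((√(N:ℝ))⁻¹ • p.2)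
    set q := ⟪p.1, p.2⟫ / (N:ℝ) with hqdef
    have hb := pairFun_le hU hD hmI h1 hq
    have hle : pairFun (fun s => Real.exp (f s)) q ≤ m ^ 2 * Real.exp (Cpair * κ ^ 2 * q ^ 2) := by
      have h2 := (abs_le.1 hb).2
      have := Real.add_one_le_exp (Cpair * κ ^ 2 * q ^ 2)
      nlinarith [mul_le_mul_of_nonneg_left this (sq_nonneg m)]
    have h0 : 0 ≤ pairFun (fun s => Real.exp (f s)) q := integral_nonneg fun h => by positivity
    refine (pow_le_pow_left₀ h0 hle M).trans ?_
    rw [mul_pow, ← pow_mul, mul_comm 2 M, pow_mul, ← Real.exp_nat_mul (Cpair * κ ^ 2 * q ^ 2) M]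
    refine mul_le_mul_of_nonneg_left (exp_le_exp.2 ?_) (by positivity)
    have hN' : (0:ℝ) < N := by exact_mod_cast hN
    have e : (1/8 : ℝ) * (⟪p.1, p.2⟫ ^ 2 / N) = (N / 8) * q ^ 2 := by
      rw [hqdef]; field_simp
    rw [e]
    nlinarith [mul_le_mul_of_nonneg_right hsmall (sq_nonneg q)]
  have hexp : Integrable (fun p : Vec N × Vec N => Real.exp ((1/8) * (⟪p.1, p.2⟫ ^ 2 / N))) (μ.prod μ) := by
    refine Integrable.of_bound (by fun_prop) (Real.exp ((1/8) * N)) ?_
    filter_upwards [norm_eq_prod hμ] with p hp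
    rw [Real.norm_eq_abs, abs_exp]
    have hN' : (0:ℝ) < N := by exact_mod_cast hN
    refine exp_le_exp.2 (mul_le_mul_of_nonneg_left ?_ (by norm_num))
    rw [div_le_iff₀ hN']
    have h := abs_real_inner_le_norm p.1 p.2
    rw [hp.1, hp.2, Real.mul_self_sqrt hN'.le] at h
    nlinarith [sq_abs (⟪p.1, p.2⟫ : ℝ), abs_nonneg (⟪p.1, p.2⟫ : ℝ)]
  exact integral_partition_sq_le_of_pair hN hμ hf hB hexp hK hpt

/-- A second-moment bound gives a gap `O(√M)`. -/
lemma gap_le_of_second_moment (hN : 0 < N) (hμ : Carried μ) {K : ℝ} (hK1 : 1 ≤ K)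
    (hf : Measurable f) (hB : ∀ s, |f s| ≤ B)
    (h2m : ∫ g, partition (M := M) μ f g ^ 2 ∂patterns N M ≤ K * (Real.exp (ann f) ^ M) ^ 2) :
    gap μ f M ≤ Real.log 2 + 4 * B * √(K * M) := by
  have := hμ.prob
  have hB0 : 0 ≤ B := (abs_nonneg _).trans (hB 0)
  set Z := partition (M := M) μ f with hZ
  set e := Real.exp (ann f) ^ M with he
  have he0 : 0 < e := pow_pos (exp_pos _) M
  have hZm : Measurable Z := measurable_partition hf
  set S := {g : Fin M → Vec N | e / 2 ≤ Z g} with hS
  have hSm : MeasurableSet S := measurableSet_le measurable_const hZm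
  have hpt : ∀ g, Z g ≤ e / 2 + 1 / (4 * K * e) * Z g ^ 2 + K * e * S.indicator (fun _ => (1:ℝ)) g := by
    intro g
    have hKe : 0 < K * e := mul_pos (by linarith) he0
    have h0 : 0 ≤ 1 / (4 * K * e) * Z g ^ 2 := by positivity
    by_cases hg : g ∈ S
    · rw [Set.indicator_of_mem hg]
      have key : 1 / (4 * K * e) * Z g ^ 2 + K * e * 1 - Z g =
          (Z g - 2 * (K * e)) ^ 2 / (4 * K * e) := by
        have hK0 : K ≠ 0 := by linarith
        field_simp; ring
      have : 0 ≤ (Z g - 2 * (K * e)) ^ 2 / (4 * K * e) := by positivity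
      linarith
    · rw [Set.indicator_of_notMem hg]
      simp only [hS, Set.mem_ofPred_eq, not_le] at hg
      linarith
  have iZ2 : Integrable (fun g => Z g ^ 2) (patterns N M) :=
    integrable_bdd (hZm.pow_const 2) (C := Real.exp (M * B) ^ 2) fun g => by
      rw [abs_of_nonneg (sq_nonneg _)]
      exact pow_le_pow_left₀ (partition_pos hf hB g).le (partition_bounds hf hB g).2 2
  have iS : Integrable (S.indicator fun _ : Fin M → Vec N => (1:ℝ)) (patterns N M) :=
    (integrable_const (1:ℝ)).indicator hSm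
  have hi : Integrable (fun g => e / 2 + 1 / (4 * K * e) * Z g ^ 2) (patterns N M) :=
    (integrable_const _).add (iZ2.const_mul _)
  have h2 := integral_mono (integrable_partition hf hB) (hi.add (iS.const_mul (K * e))) hpt
  simp only [Pi.add_apply] at h2
  rw [integral_partition hN hμ hf hB, integral_add hi (iS.const_mul _),
    integral_add (integrable_const _) (iZ2.const_mul _), integral_const_mul, integral_const_mul,
    integral_indicator_const _ hSm, integral_const, probReal_univ, one_smul, smul_eq_mul, mul_one,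
    ← he] at h2
  set P := (patterns N M).real S with hP
  have h3 : 1 / (4 * K * e) * ∫ g, Z g ^ 2 ∂patterns N M ≤ e / 4 := by
    refine (mul_le_mul_of_nonneg_left h2m (by positivity)).trans (le_of_eq ?_)
    field_simp
  have hKP : 1 / 4 ≤ K * P := by
    by_contra hc; push Not at hc
    linarith [mul_lt_mul_of_pos_right hc he0]
  set t := gap μ f M - Real.log 2 with ht
  have hsq : 0 ≤ 4 * B * √(K * M) := by positivity
  by_cases htp : t ≤ 0
  · linarith
  push Not at htp
  have hv := variance_bdd_diff (ν := stdGaussian (Vec N)) (c := 2 * B) M (fun g => Real.log (Z g))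
    (Real.measurable_log.comp hZm) _ (abs_log_partition (μ := μ) hf hB) (log_partition_diff hμ hf hB)
  have hlow : t ^ 2 * P ≤ ∫ g, (Real.log (Z g) - Phi μ f M) ^ 2 ∂patterns N M := by
    have hint : Integrable (fun g => (Real.log (Z g) - Phi μ f M) ^ 2) (patterns N M) :=
      integrable_bdd (((Real.measurable_log.comp hZm).sub_const _).pow_const 2)
        (C := (M * B + |Phi μ f M|) ^ 2) fun g => by
        rw [abs_of_nonneg (sq_nonneg _), ← sq_abs]
        exact pow_le_pow_left₀ (abs_nonneg _)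
          ((abs_sub _ _).trans (add_le_add (abs_log_partition hf hB g) le_rfl)) 2
    have := integral_mono (iS.const_mul (t ^ 2)) hint fun g => by
      by_cases hg : g ∈ S
      · simp only [Set.indicator_of_mem hg, mul_one]
        refine pow_le_pow_left₀ htp.le ?_ 2
        have hl : Real.log (e / 2) ≤ Real.log (Z g) := Real.log_le_log (by linarith) hg
        rw [Real.log_div he0.ne' two_ne_zero, he, Real.log_pow, Real.log_exp] at hl
        rw [ht, gap]; linarith
      · simp only [Set.indicator_of_notMem hg, mul_zero]; positivity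
    rwa [integral_const_mul, integral_indicator_const _ hSm, smul_eq_mul, mul_one] at this
  have hv' : ∫ g, (Real.log (Z g) - Phi μ f M) ^ 2 ∂patterns N M ≤ M * (2 * B) ^ 2 := hv
  have hK0 : 0 ≤ K := by linarith
  have a1 : t ^ 2 * (1 / 4) ≤ t ^ 2 * (K * P) := mul_le_mul_of_nonneg_left hKP (sq_nonneg t)
  have a2 : K * (t ^ 2 * P) ≤ K * (M * (2 * B) ^ 2) := mul_le_mul_of_nonneg_left (hlow.trans hv') hK0
  have a3 : t ^ 2 ≤ (4 * B * √(K * M)) ^ 2 := by
    rw [mul_pow, Real.sq_sqrt (by positivity)]; linarith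
  have := (pow_le_pow_iff_left₀ htp.le hsq two_ne_zero).1 a3
  linarith

/-- In the second-moment regime the gap is `O(√M)`. -/
lemma gap_le_second_moment (hN : 0 < N) (hμ : Carried μ) {K : ℝ} (hK : OverlapBound μ K) (hK1 : 1 ≤ K)
    (hf : Measurable f) (hB : ∀ s, |f s| ≤ B) (h1 : ∫ s, s * Real.exp (f s) ∂γ = 0)
    {r : ℝ} (hr : ∀ s t, f s - f t ≤ r)
    (hsmall : 8 * Cpair * (Real.exp r - 1) ^ 2 * M ≤ N) :
    gap μ f M ≤ Real.log 2 + 4 * B * √(K * M) :=
  gap_le_of_second_moment hN hμ hK1 hf hB (integral_partition_sq_le hN hμ hK hf hB h1 hr hsmall)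

end Vale.Agent.P157
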